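import Vale.Agent.P144Q.Defs
import Vale.Agent.P153.R2.L1.Rmt

/-!
The conformal map of a bounded simply connected domain.
-/

namespace Vale.Agent.P144Q.M

open Filter Topology Metric Set

theorem rdom {U : Set ℂ} (ho : IsOpen U) (hsc : IsSimplyConnected U) : P153.TOP.RMT.RDom U := by
  have hs : SimplyConnectedSpace U := hsc
  have : LocallyPathConnectedSpace U := ho.locallyPathConnectedSpace
  refine ⟨hsc.isPathConnected.isConnected, P153.TOP.hasLogOn_of_subtype (fun f hf => ?_)⟩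
  obtain ⟨F, hF, hF'⟩ := P153.TOP.hasLogOn_univ_of_simplyConnected U f f.continuous.continuousOn
    (fun x _ => hf x)
  exact ⟨⟨F, continuousOn_univ.1 hF⟩, fun x => hF' x (mem_univ _)⟩

theorem ne_univ {U : Set ℂ} (hb : Bornology.IsBounded U) : U ≠ univ := by
  rintro rfl
  exact NormedSpace.unbounded_univ ℝ ℂ hb

/-- The Riemann map as a pair of inverse maps. -/
theorem cm {U : Set ℂ} (ho : IsOpen U) (hb : Bornology.IsBounded U) (hsc : IsSimplyConnected U) :
    Nonempty (Cm U) := by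
  obtain ⟨z, hz⟩ := hsc.nonempty
  obtain ⟨g, h1, h2, h3, h4, -⟩ :=
    P153.TOP.RMT.exists_onto_disc ho (rdom ho hsc) (ne_univ hb) hz
  have hsd : ∀ w ∈ U, HasStrictDerivAt g (deriv g w) w := fun w hw =>
    (h1.analyticOnNhd ho w hw).hasStrictDerivAt
  set f : ℂ → ℂ := Function.invFunOn g U with hf
  have hfU : ∀ w ∈ ball (0 : ℂ) 1, f w ∈ U ∧ g (f w) = w := by
    intro w hw
    rw [← h3] at hw
    exact ⟨Function.invFunOn_mem hw, Function.invFunOn_eq hw⟩
  have hcont : ∀ w ∈ ball (0 : ℂ) 1, ContinuousAt f w := by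
    intro w hw
    obtain ⟨hz, hgz⟩ := hfU w hw
    rw [ContinuousAt, Filter.tendsto_def]
    intro s hs
    have h6 : g '' (s ∩ U) ∈ 𝓝 (g (f w)) := by
      rw [← (hsd _ hz).map_nhds_eq (h4 _ hz)]
      exact image_mem_map (inter_mem hs (ho.mem_nhds hz))
    rw [hgz] at h6
    filter_upwards [h6] with y hy
    obtain ⟨x, ⟨hxs, hxU⟩, rfl⟩ := hy
    have hy' : g x ∈ ball (0 : ℂ) 1 := by rw [← h3]; exact mem_image_of_mem _ hxU
    have := h2 (hfU _ hy').1 hxU (hfU _ hy').2
    show f (g x) ∈ s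
    rw [this]; exact hxs
  have hder : ∀ w ∈ ball (0 : ℂ) 1, HasStrictDerivAt f (deriv g (f w))⁻¹ w := by
    intro w hw
    obtain ⟨hz, hgz⟩ := hfU w hw
    refine HasStrictDerivAt.of_local_left_inverse (hcont w hw) (hsd _ hz) (h4 _ hz) ?_
    filter_upwards [isOpen_ball.mem_nhds hw] with y hy
    exact (hfU y hy).2
  have hm : MapsTo g U (ball 0 1) := fun w hw => by rw [← h3]; exact mem_image_of_mem _ hw
  exact ⟨⟨g, f, ho, h1,
    fun w hw => (hder w hw).hasDerivAt.differentiableAt.differentiableWithinAt, hm,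
    fun w hw => (hfU w hw).1, fun w hw => h2 (hfU _ (hm hw)).1 hw (hfU _ (hm hw)).2,
    fun w hw => (hfU w hw).2⟩⟩

end Vale.Agent.P144Q.M
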