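import Vale.Agent.P144G.Mass
import Vale.Agent.P144.H170.XjLim
import Vale.Agent.P144.H365.Cont2
import Vale.Agent.P144.H436.Path
import Vale.Agent.P144.U.AL.Tl
import Vale.Agent.P144D.Tame
import Mathlib.AlgebraicTopology.FundamentalGroupoid.SimplyConnected

/-!
Existence of the scaling limits in general domains: definitions and statements of the blocks.
-/

namespace Vale.Agent.P144Q

open Filter Topology Metric Vale.Agent.P144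
open Vale.Agent.P144.H170 (Pt pt nf CConv HD SLim Mk F2 gq gb PZ PO rM)
open Vale.Agent.P144G (KC kk)

/-- The finite sets `N k` approximate `D`. -/
structure Appr (D : Set ℂ) {ι : Type} (l : Filter ι) (a : ι → ℝ) (N : ι → Finset Site) :
    Prop where
  inn : ∀ z ∈ D, ∀ᶠ kx in nf l a z, kx.2 ∈ N kx.1
  sub : ∀ ε > (0 : ℝ), ∀ᶠ k in l, ∀ x ∈ N k, ∃ z ∈ D, ‖pt (a k) x - z‖ ≤ ε
  kc : ∀ᶠ k in l, KC (N k)

/-- The properties of the `H`-function that hold everywhere. -/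
structure HB (Λ : Finset Site) (Hs Hf : Site → ℝ) : Prop where
  out : ∀ v ∉ Λ, Hs v = 0
  nn : ∀ v x : Site, x ∉ Λ → |x.1 - v.1| + |x.2 - v.2| = 1 → 0 ≤ Hs v
  zero : ∀ f v, v ∈ AL.cnr f → v ∉ Λ → Hf f = 0
  le : ∀ f v, v ∈ AL.cnr f → Hf f ≤ Hs v

/-- The properties of the `H`-function at a site and a face without insertion. -/
def Reg (Λ : Finset Site) (Hs Hf : Site → ℝ) (x : Site) : Prop :=
  (x ∈ Λ → 0 ≤ AL.lap Hs x + 1 / 5 * (kk Λ x * Hs x)) ∧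
    ((∀ u ∈ AL.cnr x, u ∈ Λ) → AL.lap Hf x ≤ 0)

/-- `h` vanishes at the boundary. -/
def Van (D : Set ℂ) (h : ℂ → ℝ) : Prop :=
  ∀ ε > (0 : ℝ), ∃ η > (0 : ℝ), ∀ z ∈ D, infDist z Dᶜ < η → |h z| ≤ ε

/-- `h` is not negative near any boundary point. -/
def Sgn (D : Set ℂ) (h : ℂ → ℝ) : Prop :=
  ∀ z₀ ∈ frontier D, ∀ r > (0 : ℝ), ∃ z ∈ D, ‖z - z₀‖ < r ∧ 0 ≤ h z

/-- `h` is the limit of `H`-functions whose insertions lie in the compact set `K`. -/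
structure HData (D : Set ℂ) {ι : Type} (l : Filter ι) (a : ι → ℝ) (N : ι → Finset Site)
    (Hs Hf : ι → Site → ℝ) (K : Set ℂ) (h : ℂ → ℝ) : Prop where
  ne : l.NeBot
  a0 : Tendsto a l (𝓝[>] 0)
  ap : Appr D l a N
  cpt : IsCompact K
  sub : K ⊆ D
  hb : ∀ᶠ k in l, HB (N k) (Hs k) (Hf k)
  reg : ∀ z ∈ Dia \ K, ∀ᶠ kx in nf l a z, Reg (N kx.1) (Hs kx.1) (Hf kx.1) kx.2
  bdd : ∀ z ∈ Dia \ K, ∃ M, ∀ᶠ kx in nf l a z, Hs kx.1 kx.2 ≤ M ∧ -Hf kx.1 kx.2 ≤ M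
  hs : CConv l a (D \ K) Hs h
  hf : CConv l a (D \ K) Hf h

/-- Uniqueness for the boundary condition `Bd`. -/
def Uni (D : Set ℂ) (Bd : (ℂ → ℂ) → Prop) : Prop :=
  ∀ (κ κ' : Type) [Fintype κ] [Fintype κ'] (ζ : κ → ℂ) (ω : κ' → ℂ) (q q1 q2 : ℂ → ℂ) (T : Set ℂ),
    (∀ p, ζ p ∈ D) → (∀ p, ω p ∈ D) → Function.Injective (Sum.elim ζ ω) → T.Finite → T ⊆ D →
    (∀ z ∈ T, z ∉ Mk ζ ω) → DifferentiableOn ℂ q D → (∀ z ∈ D, z ∉ T → q z = q1 z - q2 z) →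
    (∀ p, ContinuousAt q1 (ζ p)) → (∀ p, ContinuousAt q2 (ζ p)) →
    Bd (F2 ζ ω q1) → Bd (F2 ζ ω q2) → (∀ p, H365.ResNN ζ ω q1 (ζ p)) →
    (∀ p, H365.ResNN ζ ω q2 (ζ p)) → (∀ p, q (ω p) = 0) → ∀ z ∈ D, q z = 0

/-- A small domain with its boundary condition. -/
structure Dom where
  D : Set ℂ
  Bd : (ℂ → ℂ) → Prop
  op : IsOpen D
  small : D ⊆ ball 0 (1 / 4)
  conn : ∀ T : Set ℂ, T.Finite → IsPreconnected (D \ T)
  smul : ∀ (F F' : ℂ → ℂ) (t : ℝ) (T : Set ℂ), 0 ≤ t → T.Finite → T ⊆ D →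
    (∀ z ∈ D, z ∉ T → F' z = t * F z) → Bd F → Bd F'
  zero : Bd fun _ => 0
  uni : Uni D Bd
  van : ∀ {ι : Type} {l : Filter ι} {a : ι → ℝ} {N : ι → Finset Site} {Hs Hf : ι → Site → ℝ}
    {K : Set ℂ} {h : ℂ → ℝ}, HData D l a N Hs Hf K h → Van D h
  bd : ∀ {ι : Type} {l : Filter ι} {a : ι → ℝ} {N : ι → Finset Site} {Hs Hf : ι → Site → ℝ}
    {K : Set ℂ} {h : ℂ → ℝ}, HData D l a N Hs Hf K h → ∀ F : ℂ → ℂ,
    DifferentiableOn ℂ F (D \ K) → (∀ z ∈ D \ K, HD h (fun w => H365.cH * F w) z) → Bd F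

/-! ### The limits of spinors -/

section

variable {ι κ κ' : Type} [Fintype κ] [Fintype κ']

/-- Everything we know about the limit of a sequence of spinors. -/
structure GLim (Ω : Dom) (l : Filter ι) (a : ι → ℝ) (r : κ → ι → Site) (v : κ' → ι → Site)
    (ζ : κ → ℂ) (ω : κ' → ℂ) (A B C E Hs Hf : ι → Pt → ℝ) (q : ℂ → ℂ) (h : ℂ → ℝ) : Prop where
  diff : DifferentiableOn ℂ q Ω.D
  slim : SLim l a (Ω.D \ Mk ζ ω) r v (fun k x => (√(a k))⁻¹ * A k x)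
    (fun k x => (√(a k))⁻¹ * B k x) (fun k x => (√(a k))⁻¹ * C k x)
    (fun k x => (√(a k))⁻¹ * E k x) q
  hs : CConv l a (Ω.D \ Mk ζ ω) Hs h
  hf : CConv l a (Ω.D \ Mk ζ ω) Hf h
  hd : ∀ z ∈ Ω.D \ Mk ζ ω, HD h (gq ζ ω q) z
  up : ∃ M, 0 ≤ M ∧ ∀ z ∈ Ω.D \ Mk ζ ω, h z ≤ M * ∑ p, gb z (ω p)
  lo : ∃ M, 0 ≤ M ∧ ∀ z ∈ Ω.D \ Mk ζ ω, -h z ≤ M * ∑ p, gb z (ζ p)
  bdc : Ω.Bd (F2 ζ ω q)
  resZ : ∀ p, (∀ p' ≠ p, ζ p' ≠ ζ p) → (∀ p', ω p' ≠ ζ p) →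
    ((⟨-1 / 2, 1 / 2⟩ : ℂ) * (q (ζ p) ^ 2 / PZ ζ ω p (ζ p))).im = 0 ∧
    0 ≤ ((⟨-1 / 2, 1 / 2⟩ : ℂ) * (q (ζ p) ^ 2 / PZ ζ ω p (ζ p))).re
  resO : ∀ p, (∀ p', ζ p' ≠ ω p) → (∀ p' ≠ p, ω p' ≠ ω p) →
    ((⟨-1 / 2, 1 / 2⟩ : ℂ) * (q (ω p) ^ 2 / PO ζ ω p (ω p))).im = 0 ∧
    ((⟨-1 / 2, 1 / 2⟩ : ℂ) * (q (ω p) ^ 2 / PO ζ ω p (ω p))).re ≤ 0

/-- The spinor with the source at the corner `(v, v)`. -/
noncomputable def jA (Λ : Finset Site) (r : κ → Site) (v : Site) : Site → ℝ :=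
  AL.xA Λ (rM r) {v} (AL.zj Λ (rM r) v)

/-- Lower right corners. -/
noncomputable def jB (Λ : Finset Site) (r : κ → Site) (v : Site) : Site → ℝ :=
  AL.xB Λ (rM r) {v} (AL.zj Λ (rM r) v)

/-- Upper left corners. -/
noncomputable def jC (Λ : Finset Site) (r : κ → Site) (v : Site) : Site → ℝ :=
  AL.xC Λ (rM r) {v} (AL.zj Λ (rM r) v)

/-- Upper right corners. -/
noncomputable def jD (Λ : Finset Site) (r : κ → Site) (v : Site) : Site → ℝ :=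
  AL.xD Λ (rM r) {v} (AL.zj Λ (rM r) v)

end

/-- The limit of the spinor with one inserted spin. -/
def SXj (Ω : Dom) : Prop := ∀ {ι κ : Type} [Fintype κ] {l : Ultrafilter ι} {a : ι → ℝ}
  {N : ι → Finset Site} {r : κ → ι → Site} {v : ι → Site} {ζ : κ → ℂ} {ω : ℂ},
  Tendsto a l (𝓝[>] 0) → Appr Ω.D (l : Filter ι) a N →
  (∀ p, Tendsto (fun k => pt (a k) (r p k)) l (𝓝 (ζ p))) →
  Tendsto (fun k => pt (a k) (v k)) l (𝓝 ω) → (∀ p, ζ p ∈ Ω.D) → ω ∈ Ω.D →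
  (∀ᶠ k in l, Function.Injective fun p => r p k) → (∀ᶠ k in l, ∀ p, v k ∉ AL.cnr (r p k)) →
  ∃ (Hs Hf : ι → Pt → ℝ) (q : ℂ → ℂ) (h : ℂ → ℝ),
    (∀ᶠ k in l, AL.IsH (N k) (jA (N k) (fun p => r p k) (v k))
      (jB (N k) (fun p => r p k) (v k)) (jC (N k) (fun p => r p k) (v k))
      (jD (N k) (fun p => r p k) (v k)) (Hs k) (Hf k)) ∧
    GLim Ω (l : Filter ι) a r (fun _ : Unit => v) ζ (fun _ => ω)
      (fun k => jA (N k) (fun p => r p k) (v k)) (fun k => jB (N k) (fun p => r p k) (v k))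
      (fun k => jC (N k) (fun p => r p k) (v k)) (fun k => jD (N k) (fun p => r p k) (v k))
      Hs Hf q h

/-! ### The families indexed by the mesh -/

/-- The family `Λ` approximates `D`. -/
abbrev Fam0 (D : Set ℂ) (Λ : ℝ → Finset Site) : Prop := Appr D (𝓝[>] 0) (fun a => a) Λ

/-- Distinct points of `D`. -/
def Good0 (D : Set ℂ) (p : Pts) : Prop :=
  (∀ i, p.x i ∈ D) ∧ (∀ k, p.y k ∈ D) ∧ Function.Injective (Sum.elim p.x p.y)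

/-- The kernel of the fermions. -/
noncomputable def Kn (Λ : ℝ → Finset Site) (p : Pts) (a : ℝ) (x y : AL.Lb p.n p.m) : ℝ :=
  AL.Wf (Λ a) (AL.Rp p a) [AL.cnp p a x, AL.cnp p a y]

/-- Two sources. -/
def K1 (Λ : ℝ → Finset Site) (p : Pts) : Prop := ∀ i i' : Fin p.n, i ≠ i' → ∃ c : ℂ,
  Tendsto (fun a : ℝ => AL.rho p a (.src i) * AL.rho p a (.src i') *
    (Kn Λ p a (.src i) (.src i') : ℂ) / a) (𝓝[>] 0) (𝓝 c)

/-- An energy and a source. -/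
def K2 (Λ : ℝ → Finset Site) (p : Pts) : Prop := ∀ (k : Fin p.m) (i : Fin p.n),
  (∃ c : ℂ, Tendsto (fun a : ℝ => AL.rho p a (.lo k) * AL.rho p a (.src i) *
    (Kn Λ p a (.lo k) (.src i) : ℂ) / a) (𝓝[>] 0) (𝓝 c)) ∧
  (∃ c : ℂ, Tendsto (fun a : ℝ => AL.rho p a (.hi k) * AL.rho p a (.src i) *
    (Kn Λ p a (.hi k) (.src i) : ℂ) / a) (𝓝[>] 0) (𝓝 c))

/-- Two energies. -/
def K3 (Λ : ℝ → Finset Site) (p : Pts) : Prop := ∀ k l : Fin p.m, k ≠ l →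
  ∀ x y : AL.Lb p.n p.m, (x = .lo k ∨ x = .hi k) → (y = .lo l ∨ y = .hi l) → ∃ c : ℂ,
  Tendsto (fun a : ℝ => AL.rho p a x * AL.rho p a y * (Kn Λ p a x y : ℂ) / a) (𝓝[>] 0) (𝓝 c)

/-- The two corners of an energy. -/
def K4 (Λ : ℝ → Finset Site) (p : Pts) : Prop := ∀ k : Fin p.m, ∃ c : ℂ,
  Tendsto (fun a : ℝ => AL.rho p a (.lo k) * AL.rho p a (.hi k) * ((Kn Λ p a (.lo k) (.hi k) -
    AL.sgn p a k * AL.Wf (Λ a) 0 [AL.cnp p a (.lo k), AL.cnp p a (.hi k)] : ℝ) : ℂ) / a)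
    (𝓝[>] 0) (𝓝 c)

/-- The disorder correlation. -/
noncomputable def Mn (Λ : ℝ → Finset Site) (a : ℝ) (X : Finset ℂ) : ℝ :=
  H436.MM (Λ a) (X.val.map (fl a))

/-- The rescaled disorder correlation. -/
noncomputable def Gn (Λ : ℝ → Finset Site) (X : Finset ℂ) (a : ℝ) : ℝ :=
  a ^ (-(X.card : ℝ) / 8) * Mn Λ a X

/-- Ratios of disorder correlations converge. -/
def RatioM (D : Set ℂ) (Λ : ℝ → Finset Site) : Prop := ∀ X X' : Finset ℂ, (∀ z ∈ X, z ∈ D) →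
  (∀ z ∈ X', z ∈ D) → X.card = X'.card → Even X.card →
    ∃ ρ > 0, Tendsto (fun a => Mn Λ a X / Mn Λ a X') (𝓝[>] 0) (𝓝 ρ)

/-- The rescaled disorder correlations converge. -/
def NormE (D : Set ℂ) (Λ : ℝ → Finset Site) : Prop := ∀ X : Finset ℂ, (∀ z ∈ X, z ∈ D) →
  Even X.card → ∃ g > 0, Tendsto (Gn Λ X) (𝓝[>] 0) (𝓝 g)

/-- The free critical model in the family `Λ`. -/
noncomputable def fre (J : ℝ) (Λ : ℝ → Finset Site) : Fam :=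
  fun a => gibbs J 0 (fun _ => 0) (Kc / J) none (Λ a)

/-! ### Concrete domains -/

/-- A conformal map onto the disc. -/
structure Cm (D : Set ℂ) where
  φ : ℂ → ℂ
  ψ : ℂ → ℂ
  op : IsOpen D
  φd : DifferentiableOn ℂ φ D
  ψd : DifferentiableOn ℂ ψ (ball 0 1)
  φm : Set.MapsTo φ D (ball 0 1)
  ψm : Set.MapsTo ψ (ball 0 1) D
  li : ∀ z ∈ D, ψ (φ z) = z
  ri : ∀ w ∈ ball (0 : ℂ) 1, φ (ψ w) = w

/-- The complement of `D` contains discs of all small sizes near each of its points. -/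
def Fat (D : Set ℂ) : Prop := ∃ κ > (0 : ℝ), ∃ r₀ > (0 : ℝ), ∀ z ∉ D, ∀ r, 0 < r → r ≤ r₀ →
  ∃ w, ‖w - z‖ ≤ r ∧ ∀ u, ‖u - w‖ ≤ κ * r → u ∉ D

/-- The points close to the unit circle. -/
noncomputable def rim : Filter ℂ := comap (fun w => ‖w‖) (𝓝[<] 1)

/-- The inner normal derivative in the disc. -/
noncomputable def Cm.bX {D : Set ℂ} (c : Cm D) (F : ℂ → ℂ) (w : ℂ) : ℂ :=
  -(H365.cH * F (c.ψ w)) * deriv c.ψ w * w

/-- The boundary condition. -/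
def Cm.BdC {D : Set ℂ} (c : Cm D) (F : ℂ → ℂ) : Prop :=
  Tendsto (fun w => ‖c.bX F w‖ - (c.bX F w).re) rim (𝓝 0)

/-- Bounded open sets that are, at a small scale, the intersection of two regions above graphs of
slope at most about two, with a common inner direction. -/
def Lip2 (D : Set ℂ) : Prop :=
  IsOpen D ∧ Bornology.IsBounded D ∧ ∃ κ γ r : ℝ, 0 ≤ κ ∧ κ ≤ 9 / 10 ∧ 0 < γ ∧ 0 < r ∧ ∀ z : ℂ,
    ∃ (S₁ S₂ : Set ℂ) (ν₁ ν₂ μ : ℂ), ‖ν₁‖ = 1 ∧ ‖ν₂‖ = 1 ∧ ‖μ‖ = 1 ∧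
      κ + γ ≤ μ.re * ν₁.re + μ.im * ν₁.im ∧ κ + γ ≤ μ.re * ν₂.re + μ.im * ν₂.im ∧
      P144Z.Cone S₁ ν₁ κ ∧ P144Z.Cone S₂ ν₂ κ ∧ D ∩ ball z r = S₁ ∩ S₂ ∩ ball z r

/-- The limit of the `H`-function at the boundary. -/
def SVan : Prop := ∀ D : Set ℂ, IsOpen D → D ⊆ ball 0 (1 / 4) → Fat D →
  ∀ {ι : Type} {l : Filter ι} {a : ι → ℝ} {N : ι → Finset Site} {Hs Hf : ι → Site → ℝ}
    {K : Set ℂ} {h : ℂ → ℝ}, HData D l a N Hs Hf K h → Van D h ∧ Sgn D h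

/-- The boundary condition from the `H`-function. -/
def SBdc : Prop := ∀ (D : Set ℂ) (c : Cm D), Bornology.IsBounded D → UniformContinuousOn c.φ D →
  ∀ (K : Set ℂ) (h : ℂ → ℝ) (F : ℂ → ℂ), IsCompact K → K ⊆ D → DifferentiableOn ℂ F (D \ K) →
    (∀ z ∈ D \ K, HD h (fun w => H365.cH * F w) z) → Van D h → Sgn D h → c.BdC F

/-- Uniqueness. -/
def SUni : Prop := ∀ (D : Set ℂ) (c : Cm D), Uni D c.BdC

/-- The conformal map. -/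
def SMap : Prop := ∀ D : Set ℂ, Lip2 D → IsSimplyConnected D →
  ∃ c : Cm D, UniformContinuousOn c.φ D

/-- The complement is fat. -/
def SFat : Prop := ∀ D : Set ℂ, Lip2 D → Fat D

/-- The lattice approximation. -/
def SLat : Prop := ∀ D : Set ℂ, Lip2 D → Nonempty (Cm D) → Fam0 D (disc D)

/-- The domains of the class give the abstract data. -/
def SDom : Prop := ∀ D : Set ℂ, Lip2 D → IsSimplyConnected D → D ⊆ ball 0 (1 / 4) →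
  ∃ Ω : Dom, Ω.D = D

/-- Kernels with a source at a spin. -/
def SK12 : Prop := ∀ (Ω : Dom) (Λ : ℝ → Finset Site), Fam0 Ω.D Λ → ∀ p, Good0 Ω.D p →
  K1 Λ p ∧ K2 Λ p

/-- Kernels with a source at an energy. -/
def SK34 : Prop := ∀ (Ω : Dom) (Λ : ℝ → Finset Site), Fam0 Ω.D Λ → ∀ p, Good0 Ω.D p →
  K3 Λ p ∧ K4 Λ p

/-- The ratios. -/
def SRat : Prop := ∀ Ω Ω' : Dom, Ω'.D = H436.rc '' Ω.D → ∀ Λ, Fam0 Ω.D Λ → RatioM Ω.D Λ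

/-- The normalisation. -/
def SNorm : Prop := ∀ (D : Set ℂ) (Λ : ℝ → Finset Site), IsOpen D → D ⊆ ball 0 (1 / 4) →
  Fam0 D Λ → RatioM D Λ → NormE D Λ

/-- The correlations from the kernels. -/
def SAsm : Prop := ∀ J > (0 : ℝ), ∀ (D : Set ℂ) (Λ : ℝ → Finset Site), Fam0 D Λ →
  (∀ p, Good0 D p → K1 Λ p ∧ K2 Λ p ∧ K3 Λ p ∧ K4 Λ p) → NormE D Λ → AllLim D (fre J Λ)

/-- The result. -/
def SFin : Prop := ∀ J > (0 : ℝ), ∀ D : Set ℂ, Lip2 D → IsSimplyConnected D →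
  AllLim D (crit J D none)

end Vale.Agent.P144Q
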