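import Vale.Agent.P144Q.U.Sim
import Vale.Agent.P144Q.E.Asm

/-!
From small domains to all domains of the class.
-/

namespace Vale.Agent.P144Q.B

open Finset Filter Topology Metric Vale.Agent.P144

/-- The points divided by `R`. -/
noncomputable def shr (p : Pts) (R : ℝ) : Pts :=
  ⟨p.n, p.m, fun i => p.x i / R, fun k => p.y k / R, p.j⟩

theorem fl_div {R : ℝ} (hR : R ≠ 0) (a : ℝ) (z : ℂ) : fl (a / R) (z / R) = fl a z := by
  unfold fl
  rw [Complex.div_ofReal_re, Complex.div_ofReal_im, div_div_div_cancel_right₀ hR,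
    div_div_div_cancel_right₀ hR]

theorem disc_div {R : ℝ} (hR : 0 < R) (D : Set ℂ) (a : ℝ) :
    disc ((fun z => z / (R : ℂ)) '' D) (a / R) = disc D a := by
  have e : sites ((fun z => z / (R : ℂ)) '' D) (a / R) = sites D a := by
    rw [U.div_image hR]
    ext x
    have : (R : ℂ) * (⟨a / R * x.1, a / R * x.2⟩ : ℂ) = ⟨a * x.1, a * x.2⟩ := by
      apply Complex.ext
      · rw [Complex.re_ofReal_mul]; field_simp
      · rw [Complex.im_ofReal_mul]; field_simp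
    simp only [sites, Set.mem_ofPred_eq, Set.mem_preimage, this]
  unfold disc
  rw [e]

theorem good_shr {D : Set ℂ} {p : Pts} {R : ℝ} (hR : 0 < R) (hp : Good D p) :
    Good ((fun z => z / (R : ℂ)) '' D) (shr p R) := by
  refine ⟨hp.1, fun i => ⟨_, hp.2.1 i, rfl⟩, fun k => ⟨_, hp.2.2.1 k, rfl⟩,
    fun u v h => hp.2.2.2 ?_⟩
  have h4 : (R : ℂ) ≠ 0 := by exact_mod_cast hR.ne'
  rcases u with u | u <;> rcases v with v | v <;> exact (div_left_inj' h4).1 h

theorem corr_shr {E : (Config → ℝ) → ℝ} (hE : ∀ c F, E (fun σ => c * F σ) = c * E F) (p : Pts)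
    {a R : ℝ} (ha : 0 < a) (hR : 0 < R) :
    corr a E p = ((R ^ (-(1 / 8) : ℝ)) ^ p.n * R⁻¹ ^ p.m) * corr (a / R) E (shr p R) := by
  have e1 : a ^ (-(1 / 8) : ℝ) = R ^ (-(1 / 8) : ℝ) * (a / R) ^ (-(1 / 8) : ℝ) := by
    rw [← Real.mul_rpow hR.le (div_pos ha hR).le, mul_div_cancel₀ _ hR.ne']
  have e2 : a⁻¹ = R⁻¹ * (a / R)⁻¹ := by field_simp
  unfold corr
  rw [← hE]
  unfold shr
  simp only [fl_div hR.ne']
  congr 1
  funext σ
  rw [e1, e2]
  simp only [prod_mul_distrib, prod_const, card_univ, Fintype.card_fin]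
  ring

theorem gibbs_cmul (J lam : ℝ) (V : Finset Site → ℝ) (β : ℝ) (b : Option Config)
    (Λ : Finset Site) (c : ℝ) (F : Config → ℝ) :
    gibbs J lam V β b Λ (fun σ => c * F σ) = c * gibbs J lam V β b Λ F := by
  cases b <;> unfold gibbs P144.expect <;> simp only [mul_assoc, ← Finset.mul_sum, mul_div_assoc]

theorem div_lim {R : ℝ} (hR : 0 < R) : Tendsto (fun a : ℝ => a / R) (𝓝[>] 0) (𝓝[>] 0) := by
  refine tendsto_nhdsWithin_iff.2 ⟨?_, ?_⟩
  · simpa using (tendsto_id.mono_left nhdsWithin_le_nhds : Tendsto id (𝓝[>] (0:ℝ)) _).div_const R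
  · filter_upwards [self_mem_nhdsWithin] with a ha
    exact div_pos ha hR

/-- The limits scale. -/
theorem lim_div {J R : ℝ} (hR : 0 < R) {D : Set ℂ} {p : Pts} {c : ℝ}
    (h : Lim (crit J ((fun z => z / (R : ℂ)) '' D) none) (shr p R) c) :
    Lim (crit J D none) p (((R ^ (-(1 / 8) : ℝ)) ^ p.n * R⁻¹ ^ p.m) * c) := by
  refine ((Tendsto.comp h (div_lim hR)).const_mul _).congr' ?_
  filter_upwards [self_mem_nhdsWithin] with a ha
  have e : crit J ((fun z => z / (R : ℂ)) '' D) none (a / R) = crit J D none a := by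
    unfold crit inDom
    rw [disc_div hR]
    rfl
  simp only [Function.comp, e]
  exact (corr_shr (E := crit J D none a) (gibbs_cmul J 0 _ _ none (disc D a)) p ha hR).symm

theorem allLim_div {J R : ℝ} (hR : 0 < R) {D : Set ℂ}
    (h : AllLim ((fun z => z / (R : ℂ)) '' D) (crit J ((fun z => z / (R : ℂ)) '' D) none)) :
    AllLim D (crit J D none) := fun p hp => by
  obtain ⟨c, hc⟩ := h _ (good_shr hR hp)
  exact ⟨_, lim_div hR hc⟩

/-- Small domains given by abstract data. -/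
theorem small (h12 : SK12) (h34 : SK34) (hR : SRat) (hN : SNorm) {J : ℝ} (hJ : 0 < J)
    (Ω Ω' : Dom) (h : Ω'.D = H436.rc '' Ω.D) (hF : Fam0 Ω.D (disc Ω.D)) :
    AllLim Ω.D (crit J Ω.D none) :=
  E.asm hJ (fun _ hz => Ω.dia hz) hF
    (fun p hp => ⟨(h12 Ω _ hF p hp).1, (h12 Ω _ hF p hp).2, (h34 Ω _ hF p hp).1,
      (h34 Ω _ hF p hp).2⟩) (hN _ _ Ω.op Ω.small hF (hR Ω Ω' h _ hF))

theorem fin (hD : SDom) (hL : SLat) (hM : SMap) (h12 : SK12) (h34 : SK34) (hR : SRat)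
    (hN : SNorm) : SFin := by
  intro J hJ D hl hs
  obtain ⟨R, R0, hsm⟩ := U.exists_small hl.2.1
  refine allLim_div R0 ?_
  have l1 := U.lip2_div R0 hl
  have s1 := U.sc_div R0 hs
  obtain ⟨Ω, e⟩ := hD _ l1 s1 hsm
  obtain ⟨Ω', e'⟩ := hD _ (U.lip2_rc l1) (U.sc_rc s1) (U.small_rc hsm)
  obtain ⟨c, -⟩ := hM _ l1 s1
  have hF := hL _ l1 ⟨c⟩
  rw [← e] at e' hF ⊢
  exact small h12 h34 hR hN hJ Ω Ω' e' hF

end Vale.Agent.P144Q.B
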