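import Vale.Agent.P144Q.Basic

/-!
Ratios of disorder correlations from their logarithmic gradients, in a general domain.
-/

namespace Vale.Agent.P144Q.B

open Finset Vale.Agent.P144 Filter Topology
open Vale.Agent.P144.AL (NG cutS spn_zero)
open Vale.Agent.P144.H436 (rs rf rs_rs rf_rf rs_inj cutS_rf Tc fam rc rc_rc QQ_pos)
open Vale.Agent.P144.H170 (pt nf ev_nf)
open Vale.Agent.P144G (KC)

/-! ### reflection -/

theorem mem_rs {Λ : Finset Site} {x : Site} : x ∈ Λ.image rs ↔ rs x ∈ Λ := by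
  rw [mem_image]
  constructor
  · rintro ⟨y, hy, rfl⟩; rwa [rs_rs]
  · intro h; exact ⟨rs x, h, rs_rs x⟩

theorem rs_succ (x : Site) : rs (x.1 + 1, x.2) = rf x := by simp [rs, rf]; ring

theorem rs_eq (x : Site) : rs x = ((rf x).1 + 1, (rf x).2) := by simp [rs, rf]

theorem WW_rs (Λ : Finset Site) (a : Site → ℝ) (s : Site → ℝ) :
    WW (Λ.image rs) (fun x => a (rf x)) 1 (fun x => s (rs x)) = WW Λ a 1 s := by
  unfold WW
  congr 1
  · refine prod_nbij' rf rf ?_ ?_ ?_ ?_ ?_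
    · intro x hx
      rw [mem_hor, mem_rs, mem_rs, rs_succ, rs_eq] at hx
      exact mem_hor.2 ⟨hx.2, hx.1⟩
    · intro x hx
      rw [mem_hor] at hx
      rw [mem_hor, mem_rs, mem_rs, rs_succ, rs_eq, rf_rf]
      exact ⟨hx.2, hx.1⟩
    · intro x _; exact rf_rf x
    · intro x _; exact rf_rf x
    · intro x _
      simp only [rs_succ, ← rs_eq]
      ring
  · refine prod_nbij' rs rs ?_ ?_ ?_ ?_ ?_
    · intro x hx
      rw [mem_ver, mem_rs, mem_rs] at hx
      exact mem_ver.2 hx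
    · intro x hx
      rw [mem_ver] at hx
      rw [mem_ver, mem_rs, mem_rs, rs_rs]
      refine ⟨hx.1, ?_⟩
      have : rs ((rs x).1, (rs x).2 + 1) = (x.1, x.2 + 1) := by simp [rs]
      rw [this]
      exact hx.2
    · intro x _; exact rs_rs x
    · intro x _; exact rs_rs x
    · intro x _
      rfl

/-- The partition functions with disorders are invariant under the reflection. -/
theorem QQ_rf (Λ : Finset Site) (R : Multiset Site) :
    AL.QQ (Λ.image rs) (R.map rf) 0 = AL.QQ Λ R 0 := by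
  unfold AL.QQ NG
  refine sum_nbij' (fun T => T.image rs) (fun T => T.image rs) ?_ ?_ ?_ ?_ ?_
  · intro T hT
    rw [mem_powerset] at hT ⊢
    intro x hx
    obtain ⟨y, hy, rfl⟩ := mem_image.1 hx
    exact mem_rs.1 (hT hy)
  · intro T hT
    rw [mem_powerset] at hT ⊢
    exact image_subset_image hT
  · intro T _
    rw [image_image, show rs ∘ rs = id from funext rs_rs, image_id]
  · intro T _
    rw [image_image, show rs ∘ rs = id from funext rs_rs, image_id]
  · intro T _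
    rw [spn_zero, spn_zero, one_mul, one_mul]
    have h1 : (tv (T.image rs)) = fun x => tv T (rs x) := by
      funext x
      unfold tv
      simp only [mem_rs]
    rw [h1, ← WW_rs Λ (cutS R) (fun x => tv T (rs x))]
    have h2 : (fun x => cutS R (rf x)) = cutS (R.map rf) := by
      funext x
      rw [← cutS_rf R (rf x), rf_rf]
    rw [h2]
    congr 1
    funext x
    rw [rs_rs]

theorem pt_rs (a : ℝ) (x : Site) : pt a (rs x) = rc (pt a x) := by
  apply Complex.ext <;> simp [pt, rs, rc]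

theorem norm_rc (z w : ℂ) : ‖rc z - rc w‖ = ‖z - w‖ := by
  have : rc z - rc w = -(starRingEnd ℂ (z - w)) := by
    apply Complex.ext <;> simp [rc] <;> ring
  rw [this, norm_neg, Complex.norm_conj]

theorem kc_rs {Λ : Finset Site} (h : KC Λ) : KC (Λ.image rs) := by
  intro v hv w hw
  rw [mem_rs] at hv hw
  have h1 := (h _ hv _ hw).lift (p := fun x y : Site => y ∉ Λ.image rs ∧ |x.1 - y.1| ≤ 1 ∧
    |x.2 - y.2| ≤ 1) rs fun x y hxy => by
      refine ⟨by rw [mem_rs, rs_rs]; exact hxy.1, ?_, hxy.2.2⟩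
      have : (rs x).1 - (rs y).1 = -(x.1 - y.1) := by simp [rs]; ring
      rw [this, abs_neg]
      exact hxy.2.1
  rwa [Function.onFun, rs_rs, rs_rs] at h1

theorem appr_rs {D : Set ℂ} {ι : Type} {l : Filter ι} {a : ι → ℝ} {N : ι → Finset Site}
    (h : Appr D l a N) : Appr (rc '' D) l a fun k => (N k).image rs where
  inn := by
    rintro _ ⟨z, hz, rfl⟩
    obtain ⟨r, hr, h1⟩ := (ev_nf (P := fun k x => x ∈ N k)).1 (h.inn z hz)
    refine (ev_nf (P := fun k x => x ∈ (N k).image rs)).2 ⟨r, hr, h1.mono fun k hk x hx => ?_⟩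
    refine mem_rs.2 (hk _ ?_)
    rwa [pt_rs, ← norm_rc, rc_rc]
  sub := fun ε hε => (h.sub ε hε).mono fun k hk x hx => by
    obtain ⟨z, hz, h1⟩ := hk _ (mem_rs.1 hx)
    refine ⟨rc z, ⟨z, hz, rfl⟩, ?_⟩
    rwa [pt_rs, ← norm_rc, rc_rc] at h1
  kc := h.kc.mono fun k hk => kc_rs hk

/-! ### families of faces -/

/-- Families of faces with a limit. -/
structure FD (D : Set ℂ) {α : Type} (l : Filter α) {n : ℕ} (a : α → ℝ) (N : α → Finset Site)
    (r : α → Fin n → Site) (v : α → Site) (ρ : Fin n → ℂ) (ζ : ℂ) : Prop where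
  a0 : Tendsto a l (𝓝[>] 0)
  aN : Appr D l a N
  r : ∀ p, Tc l a (fun x => r x p) (ρ p)
  v : Tc l a v ζ

/-- Distinct points of the domain. -/
structure Cf (D : Set ℂ) {n : ℕ} (ρ : Fin n → ℂ) (ζ : ℂ) : Prop where
  rD : ∀ p, ρ p ∈ D
  inj : Function.Injective ρ
  zD : ζ ∈ D
  ne : ∀ p, ρ p ≠ ζ

variable {D : Set ℂ}

/-- The ratio of disorder correlations. -/
noncomputable def rat {n : ℕ} (N : Finset Site) (r : Fin n → Site) (v d : Site) : ℝ :=
  AL.QQ N ((v + d) ::ₘ fam r) 0 / AL.QQ N (v ::ₘ fam r) 0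

/-- The logarithmic gradients of the disorder correlations converge. -/
def T5 (D : Set ℂ) (n : ℕ) (d : Site) : Prop := ∀ (ρ : Fin n → ℂ) (ζ : ℂ), Cf D ρ ζ → ∃ c : ℝ,
  ∀ (α : Type) (U : Ultrafilter α) (a : α → ℝ) (N : α → Finset Site) (r : α → Fin n → Site) (v : α → Site),
    FD D (U : Filter α) a N r v ρ ζ →
      Tendsto (fun x => (a x)⁻¹ * (rat (N x) (r x) (v x) d - 1)) U (𝓝 c)

/-- The ratios tend to one. -/
def T0 (D : Set ℂ) (n : ℕ) (d : Site) : Prop := ∀ (ρ : Fin n → ℂ) (ζ : ℂ), Cf D ρ ζ →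
  ∀ (α : Type) (U : Ultrafilter α) (a : α → ℝ) (N : α → Finset Site) (r : α → Fin n → Site) (v : α → Site),
    FD D (U : Filter α) a N r v ρ ζ → Tendsto (fun x => rat (N x) (r x) (v x) d) U (𝓝 1)

theorem rat_pos {n : ℕ} (N : Finset Site) (r : Fin n → Site) (v d : Site) : 0 < rat N r v d :=
  div_pos (QQ_pos _ _) (QQ_pos _ _)

theorem rat_mul {n : ℕ} (N : Finset Site) (r : Fin n → Site) (v d d' : Site) :
    rat N r v d * rat N r (v + d) d' = rat N r v (d + d') := by
  unfold rat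
  have h1 := (QQ_pos N ((v + d) ::ₘ fam r)).ne'
  have h2 := (QQ_pos N (v ::ₘ fam r)).ne'
  rw [add_assoc]
  field_simp

theorem rat_zero {n : ℕ} (N : Finset Site) (r : Fin n → Site) (v : Site) : rat N r v 0 = 1 := by
  unfold rat
  rw [add_zero]
  exact div_self (QQ_pos _ _).ne'

theorem rat_neg {n : ℕ} (N : Finset Site) (r : Fin n → Site) (v d : Site) :
    rat N r v (-d) = (rat N r (v + -d) d)⁻¹ := by
  have h := rat_mul N r v (-d) d
  rw [neg_add_cancel, rat_zero] at h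
  exact eq_inv_of_mul_eq_one_left h

theorem FD.shift {α : Type} {l : Filter α} {n : ℕ} {a : α → ℝ} {N : α → Finset Site}
    {r : α → Fin n → Site} {v : α → Site} {ρ : Fin n → ℂ} {ζ : ℂ} (h : FD D l a N r v ρ ζ)
    (d : Site) : FD D l a N r (fun x => v x + d) ρ ζ := ⟨h.a0, h.aN, h.r, h.v.shift h.a0 d⟩

theorem T5.t0 {n : ℕ} {d : Site} (h : T5 D n d) : T0 D n d := by
  intro ρ ζ hc α U a N r v hf
  obtain ⟨c, hc'⟩ := h ρ ζ hc
  have h1 := hc' α U a N r v hf
  have h0 : Tendsto a U (𝓝 0) := hf.a0.mono_right nhdsWithin_le_nhds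
  have hpos : ∀ᶠ x in (U : Filter α), 0 < a x := hf.a0.eventually self_mem_nhdsWithin
  have h2 := (h0.mul h1).add_const 1
  rw [zero_mul, zero_add] at h2
  refine h2.congr' (hpos.mono fun x hx => ?_)
  rw [← mul_assoc, mul_inv_cancel₀ hx.ne', one_mul, sub_add_cancel]

theorem T0.add {n : ℕ} {d d' : Site} (h : T0 D n d) (h' : T0 D n d') : T0 D n (d + d') := by
  intro ρ ζ hc α U a N r v hf
  have h1 := h ρ ζ hc α U a N r v hf
  have h2 := h' ρ ζ hc α U a N r _ (hf.shift d)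
  have := h1.mul h2
  rw [one_mul] at this
  exact this.congr fun x => rat_mul _ _ _ _ _

theorem T0.neg {n : ℕ} {d : Site} (h : T0 D n d) : T0 D n (-d) := by
  intro ρ ζ hc α U a N r v hf
  have h2 := h ρ ζ hc α U a N r _ (hf.shift (-d))
  have := h2.inv₀ one_ne_zero
  rw [inv_one] at this
  exact this.congr fun x => (rat_neg _ _ _ _).symm

theorem T0.zero (n : ℕ) : T0 D n 0 := by
  intro ρ ζ hc α U a N r v hf
  simp only [rat_zero]
  exact tendsto_const_nhds

theorem T5.neg {n : ℕ} {d : Site} (h : T5 D n d) : T5 D n (-d) := by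
  intro ρ ζ hc
  obtain ⟨c, hc'⟩ := h ρ ζ hc
  refine ⟨-c, fun α U a N r v hf => ?_⟩
  have h1 := hc' α U a N r _ (hf.shift (-d))
  have h2 := h.t0 ρ ζ hc α U a N r _ (hf.shift (-d))
  have h3 := (h1.mul (h2.inv₀ one_ne_zero)).neg
  rw [inv_one, mul_one] at h3
  refine h3.congr fun x => ?_
  rw [rat_neg]
  have := (rat_pos (N x) (r x) (v x + -d) d).ne'
  field_simp
  ring

theorem rat_rf {n : ℕ} (N : Finset Site) (r : Fin n → Site) (v d : Site) :
    rat (N.image rs) (fun p => rf (r p)) (rf v) (rs d) = rat N r v d := by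
  unfold rat
  have h1 : fam (fun p => rf (r p)) = (fam r).map rf := by
    unfold fam
    rw [Multiset.map_map]
    rfl
  have h2 : rf v + rs d = rf (v + d) := by
    unfold rf rs
    refine Prod.ext ?_ ?_
    · simp; ring
    · simp
  rw [h1, h2, ← Multiset.map_cons, ← Multiset.map_cons, QQ_rf, QQ_rf]

theorem T5.refl {n : ℕ} {d : Site} (h : T5 (rc '' D) n d) : T5 D n (rs d) := by
  intro ρ ζ hc
  have hc2 : Cf (rc '' D) (fun p => rc (ρ p)) (rc ζ) := ⟨fun p => ⟨_, hc.rD p, rfl⟩,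
    fun p q h => hc.inj (by rw [← rc_rc (ρ p), h, rc_rc]), ⟨_, hc.zD, rfl⟩,
    fun p h => hc.ne p (by rw [← rc_rc (ρ p), h, rc_rc])⟩
  obtain ⟨c, hc'⟩ := h _ _ hc2
  refine ⟨c, fun α U a N r v hf => ?_⟩
  have h1 := hc' α U a (fun x => (N x).image rs) (fun x p => rf (r x p)) (fun x => rf (v x))
    ⟨hf.a0, appr_rs hf.aN, fun p => (hf.r p).refl hf.a0, hf.v.refl hf.a0⟩
  refine h1.congr fun x => ?_
  have := rat_rf (N x) (r x) (v x) (rs d)
  rw [rs_rs] at this
  rw [this]

/-- All finite displacements. -/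
theorem T0_all {n : ℕ} (h5 : T5 D n (-1, -1)) (h0 : T0 D n (1, 0)) (d : Site) : T0 D n d := by
  have h1 : T0 D n (1, 1) := by
    have := h5.t0.neg
    simpa using this
  have h2 : T0 D n (0, 1) := by
    have := h1.add h0.neg
    simpa using this
  have hn : ∀ (e : Site), T0 D n e → ∀ k : ℕ, T0 D n (k • e) := by
    intro e he k
    induction k with
    | zero => rw [zero_smul]; exact T0.zero n
    | succ k ih => rw [succ_nsmul]; exact ih.add he
  have hz : ∀ (e : Site), T0 D n e → ∀ k : ℤ, T0 D n (k • e) := by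
    intro e he k
    obtain ⟨m, rfl | rfl⟩ := k.eq_nat_or_neg
    · rw [natCast_zsmul]; exact hn e he m
    · rw [neg_smul, natCast_zsmul]; exact (hn e he m).neg
  have := (hz _ h0 d.1).add (hz _ h2 d.2)
  have e : d.1 • ((1, 0) : Site) + d.2 • ((0, 1) : Site) = d := by
    refine Prod.ext ?_ ?_ <;> simp
  rwa [e] at this

end Vale.Agent.P144Q.B
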