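import Vale.Agent.P144Q.BPath
import Vale.Agent.P144.H436.Path3

/-!
Moving one disorder along a diagonal segment, in a general domain.
-/

namespace Vale.Agent.P144Q.B

open Finset Vale.Agent.P144 Filter Topology MeasureTheory
open Vale.Agent.P144.H436 (rs rc Tc fam QQ_pos log_lim near_lim Tc_fl stp cx Tc_stp stp_Ioc floor_diff
  ball_of_sq MM_pos)

section seg

variable {D : Set ℂ} (Λ : ℝ → Finset Site) {n : ℕ} (ρ : Fin n → ℂ) (z : ℂ) (d : Site)

/-- the logarithmic ratio of one step -/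
noncomputable def lr (a τ : ℝ) : ℝ :=
  a⁻¹ * Real.log (rat (Λ a) (fun p => fl a (ρ p)) (fl a z + (stp a τ) • d) d)

variable {Λ ρ z d}

theorem lr_lim (hL : Fam0 D Λ) (h5 : T5 D n d) {τ₀ : ℝ} (hc : Cf D ρ (z + τ₀ * cx d)) : ∃ c : ℝ,
    ∀ (α : Type) (U : Ultrafilter α) (a τ : α → ℝ), Tendsto a U (𝓝[>] 0) →
      (∀ᶠ x in (U : Filter α), 0 ≤ τ x) → Tendsto τ U (𝓝 τ₀) →
      Tendsto (fun x => lr Λ ρ z d (a x) (τ x)) U (𝓝 c) := by
  obtain ⟨c, hc'⟩ := h5 _ _ hc
  refine ⟨c, fun α U a τ ha h0 hτ => ?_⟩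
  have hf : FD D (U : Filter α) a (fun x => Λ (a x)) (fun x p => fl (a x) (ρ p))
      (fun x => fl (a x) z + (stp (a x) (τ x)) • d) ρ (z + τ₀ * cx d) :=
    ⟨ha, hL.comp ha, fun p => Tc_fl ha _, Tc_stp z d ha τ τ₀ h0 hτ⟩
  exact log_lim (ha.eventually self_mem_nhdsWithin) (fun x => rat_pos _ _ _ _)
    (hc' α U a _ _ _ hf) (h5.t0 _ _ hc α U a _ _ _ hf)

/-- The logarithmic ratios are bounded along a segment. -/
theorem lr_bdd (hL : Fam0 D Λ) (h5 : T5 D n d) {s : ℝ} (hs : ∀ τ ∈ Set.Icc 0 s, Cf D ρ (z + τ * cx d)) :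
    ∃ B : ℝ, ∀ᶠ a in 𝓝[>] (0:ℝ), ∀ τ ∈ Set.Icc 0 s, |lr Λ ρ z d a τ| ≤ B := by
  by_contra hcon
  push Not at hcon
  have key : ∀ k : ℕ, ∃ a τ : ℝ, 0 < a ∧ a < 1 / ((k : ℝ) + 1) ∧ τ ∈ Set.Icc 0 s ∧
      (k : ℝ) < |lr Λ ρ z d a τ| := by
    intro k
    have hk : (0:ℝ) < 1 / ((k : ℝ) + 1) := by positivity
    have h1 : ∀ᶠ a in 𝓝[>] (0:ℝ), a ∈ Set.Ioo (0:ℝ) (1 / ((k : ℝ) + 1)) := Ioo_mem_nhdsGT hk
    obtain ⟨a, ⟨τ, hτ, hB⟩, ha⟩ := ((hcon k).and_eventually h1).exists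
    exact ⟨a, τ, ha.1, ha.2, hτ, hB⟩
  choose a τ ha0 ha1 hτ hB using key
  let U : Ultrafilter ℕ := hyperfilter ℕ
  have hU : (U : Filter ℕ) ≤ atTop := Nat.hyperfilter_le_atTop
  have hat : Tendsto a atTop (𝓝[>] 0) := by
    rw [tendsto_nhdsWithin_iff]
    exact ⟨squeeze_zero (fun k => (ha0 k).le) (fun k => (ha1 k).le)
      tendsto_one_div_add_atTop_nhds_zero_nat, Eventually.of_forall fun k => ha0 k⟩
  obtain ⟨τ₀, hτ₀, hlim⟩ := isCompact_Icc.ultrafilter_le_nhds (U.map τ) (by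
    rw [Filter.le_principal_iff]
    exact Filter.Eventually.of_forall (f := (U : Filter ℕ)) fun k => hτ k)
  have hτt : Tendsto τ U (𝓝 τ₀) := hlim
  obtain ⟨c, hc⟩ := lr_lim hL h5 (hs τ₀ hτ₀)
  have h1 := hc ℕ U a τ (hat.mono_left hU) (Eventually.of_forall fun k => (hτ k).1) hτt
  have h2 : ∀ᶠ k in (U : Filter ℕ), |lr Λ ρ z d (a k) (τ k)| < |c| + 1 :=
    (h1.abs).eventually_lt_const (lt_add_one _)
  have h3 : ∀ᶠ k : ℕ in (U : Filter ℕ), |c| + 1 < (k : ℝ) :=
    hU (tendsto_natCast_atTop_atTop.eventually_gt_atTop (|c| + 1))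
  obtain ⟨k, h4, h5⟩ := (h2.and h3).exists
  have := hB k
  linarith

theorem lr_int {a : ℝ} (ha : 0 < a) (m : ℕ) :
    Real.log (AL.QQ (Λ a) ((fl a z + m • d) ::ₘ fam fun p => fl a (ρ p)) 0 /
      AL.QQ (Λ a) (fl a z ::ₘ fam fun p => fl a (ρ p)) 0) =
    ∫ τ in (0:ℝ)..(m * a), lr Λ ρ z d a τ := by
  have hle : ∀ t : ℕ, (t : ℝ) * a ≤ ((t + 1 : ℕ) : ℝ) * a := fun t =>
    mul_le_mul_of_nonneg_right (by exact_mod_cast Nat.le_succ t) ha.le
  have heq : ∀ t : ℕ, Set.EqOn (fun _ => a⁻¹ * Real.log (rat (Λ a) (fun p => fl a (ρ p))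
      (fl a z + t • d) d)) (lr Λ ρ z d a) (Set.uIoc ((t : ℝ) * a) ((t + 1 : ℕ) * a)) := by
    intro t τ hτ
    rw [Set.uIoc_of_le (hle t)] at hτ
    simp only [lr, stp_Ioc ha hτ]
  have hint : ∀ t < m, IntervalIntegrable (lr Λ ρ z d a) volume ((fun k : ℕ => (k : ℝ) * a) t)
      ((fun k : ℕ => (k : ℝ) * a) (t + 1)) := fun t _ =>
    IntervalIntegrable.congr (heq t) intervalIntegrable_const
  have h1 := intervalIntegral.sum_integral_adjacent_intervals hint
  simp only [Nat.cast_zero, zero_mul] at h1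
  rw [← h1]
  have h2 : ∀ t : ℕ, ∫ τ in ((t : ℝ) * a)..(((t + 1 : ℕ) : ℝ) * a), lr Λ ρ z d a τ =
      Real.log (rat (Λ a) (fun p => fl a (ρ p)) (fl a z + t • d) d) := by
    intro t
    rw [← intervalIntegral.integral_congr_ae (Eventually.of_forall fun x hx => heq t hx),
      intervalIntegral.integral_const]
    push_cast
    rw [smul_eq_mul, show ((t : ℝ) + 1) * a - t * a = a by ring, ← mul_assoc,
      mul_inv_cancel₀ ha.ne', one_mul]
  rw [sum_congr rfl fun t _ => h2 t]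
  clear h1 h2 hint heq hle
  induction m with
  | zero =>
    rw [zero_smul, add_zero, div_self (QQ_pos _ _).ne', Real.log_one]
    simp
  | succ m ih =>
    rw [sum_range_succ, ← ih, ← Real.log_mul]
    · congr 1
      unfold rat
      have h1 := (QQ_pos (Λ a) ((fl a z + m • d) ::ₘ fam fun p => fl a (ρ p))).ne'
      have h2 := (QQ_pos (Λ a) (fl a z ::ₘ fam fun p => fl a (ρ p))).ne'
      rw [succ_nsmul, ← add_assoc]
      field_simp
    · exact (div_pos (QQ_pos _ _) (QQ_pos _ _)).ne'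
    · exact (rat_pos _ _ _ _).ne'

theorem lr_meas (a : ℝ) : Measurable (lr Λ ρ z d a) := by
  unfold lr stp
  refine Measurable.const_mul ?_ _
  have h1 : Measurable fun k : ℕ => Real.log (rat (Λ a) (fun p => fl a (ρ p))
    (fl a z + (k - 1) • d) d) := measurable_from_nat
  exact h1.comp (Nat.measurable_ceil.comp (measurable_id.div_const a))

/-- Moving along a segment. -/
theorem seg_lim (hL : Fam0 D Λ) (h5 : T5 D n d) {s : ℝ} (hs0 : 0 ≤ s)
    (hs : ∀ τ ∈ Set.Icc 0 s, Cf D ρ (z + τ * cx d)) :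
    ∃ L : ℝ, Tendsto (fun a : ℝ =>
      AL.QQ (Λ a) ((fl a z + ⌊s / a⌋₊ • d) ::ₘ fam fun p => fl a (ρ p)) 0 /
      AL.QQ (Λ a) (fl a z ::ₘ fam fun p => fl a (ρ p)) 0) (𝓝[>] 0) (𝓝 (Real.exp L)) := by
  obtain ⟨B, hB⟩ := lr_bdd hL h5 hs
  have hex : ∀ τ : ℝ, ∃ c : ℝ, τ ∈ Set.Icc 0 s →
      ∀ (α : Type) (U : Ultrafilter α) (a τ' : α → ℝ), Tendsto a U (𝓝[>] 0) →
      (∀ᶠ x in (U : Filter α), 0 ≤ τ' x) → Tendsto τ' U (𝓝 τ) →
      Tendsto (fun x => lr Λ ρ z d (a x) (τ' x)) U (𝓝 c) := by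
    intro τ
    by_cases h : τ ∈ Set.Icc 0 s
    · obtain ⟨c, hc⟩ := lr_lim hL h5 (hs τ h)
      exact ⟨c, fun _ => hc⟩
    · exact ⟨0, fun h' => absurd h' h⟩
  choose c hc using hex
  have hpt : ∀ τ ∈ Set.Icc 0 s, Tendsto (fun a => lr Λ ρ z d a τ) (𝓝[>] 0) (𝓝 (c τ)) := by
    intro τ hτ
    rw [tendsto_iff_ultrafilter]
    intro U hU
    exact hc τ hτ ℝ U id (fun _ => τ) hU (Eventually.of_forall fun _ => hτ.1) tendsto_const_nhds
  have h1 : Tendsto (fun a => ∫ τ in (0:ℝ)..s, lr Λ ρ z d a τ) (𝓝[>] 0)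
      (𝓝 (∫ τ in (0:ℝ)..s, c τ)) := by
    refine intervalIntegral.tendsto_integral_filter_of_dominated_convergence (fun _ => B) ?_ ?_ ?_ ?_
    · exact Eventually.of_forall fun a => (lr_meas a).aestronglyMeasurable
    · filter_upwards [hB] with a ha
      refine Eventually.of_forall fun τ hτ => ?_
      rw [Set.uIoc_of_le hs0] at hτ
      exact ha τ ⟨hτ.1.le, hτ.2⟩
    · exact intervalIntegrable_const
    · refine Eventually.of_forall fun τ hτ => ?_
      rw [Set.uIoc_of_le hs0] at hτ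
      exact hpt τ ⟨hτ.1.le, hτ.2⟩
  have hpos : ∀ᶠ a in 𝓝[>] (0:ℝ), 0 < a := self_mem_nhdsWithin
  have h2 : Tendsto (fun a => (∫ τ in (0:ℝ)..s, lr Λ ρ z d a τ) -
      ∫ τ in (0:ℝ)..(⌊s / a⌋₊ * a), lr Λ ρ z d a τ) (𝓝[>] 0) (𝓝 0) := by
    have h3 : Tendsto (fun a : ℝ => |B| * a) (𝓝[>] 0) (𝓝 0) := by
      have : Tendsto (fun a : ℝ => |B| * a) (𝓝 0) (𝓝 (|B| * 0)) := tendsto_id.const_mul _
      rw [mul_zero] at this
      exact this.mono_left nhdsWithin_le_nhds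
    refine squeeze_zero_norm' ?_ h3
    filter_upwards [hpos, hB] with a ha hBa
    have e1 : (⌊s / a⌋₊ : ℝ) * a ≤ s := by
      have := Nat.floor_le (div_nonneg hs0 ha.le)
      rwa [le_div_iff₀ ha] at this
    have e2 : s ≤ (⌊s / a⌋₊ : ℝ) * a + a := by
      have := (Nat.lt_floor_add_one (s / a)).le
      rw [div_le_iff₀ ha] at this
      linarith
    have e3 : 0 ≤ (⌊s / a⌋₊ : ℝ) * a := by positivity
    have hii : ∀ x y : ℝ, x ∈ Set.Icc 0 s → y ∈ Set.Icc 0 s →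
        IntervalIntegrable (lr Λ ρ z d a) volume x y := by
      intro x y hx hy
      refine (intervalIntegrable_const (c := B)).mono_fun (lr_meas a).aestronglyMeasurable ?_
      rw [Filter.EventuallyLE, ae_restrict_iff' measurableSet_uIoc]
      refine Eventually.of_forall fun τ hτ => ?_
      have hτ' : τ ∈ Set.Icc 0 s := by
        rcases le_total x y with h | h
        · rw [Set.uIoc_of_le h] at hτ
          exact ⟨hx.1.trans hτ.1.le, hτ.2.trans hy.2⟩
        · rw [Set.uIoc_of_ge h] at hτ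
          exact ⟨hy.1.trans hτ.1.le, hτ.2.trans hx.2⟩
      rw [Real.norm_eq_abs, Real.norm_eq_abs]
      exact (hBa τ hτ').trans (le_abs_self B)
    have m0 : (0:ℝ) ∈ Set.Icc 0 s := ⟨le_rfl, hs0⟩
    have m1 : (⌊s / a⌋₊ : ℝ) * a ∈ Set.Icc 0 s := ⟨e3, e1⟩
    have m2 : s ∈ Set.Icc 0 s := ⟨hs0, le_rfl⟩
    rw [intervalIntegral.integral_interval_sub_left (hii 0 s m0 m2) (hii 0 _ m0 m1)]
    refine (intervalIntegral.norm_integral_le_of_norm_le_const (C := |B|) fun τ hτ => ?_).trans ?_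
    · rw [Set.uIoc_of_le e1] at hτ
      exact (hBa τ ⟨e3.trans hτ.1.le, hτ.2⟩).trans (le_abs_self B)
    · refine mul_le_mul_of_nonneg_left ?_ (abs_nonneg B)
      rw [abs_of_nonneg (by linarith)]
      linarith
  have h3 := h1.sub h2
  rw [sub_zero] at h3
  refine ⟨_, ((Real.continuous_exp.tendsto _).comp h3).congr' ?_⟩
  filter_upwards [hpos] with a ha
  simp only [Function.comp]
  rw [sub_sub_cancel, ← lr_int ha, Real.exp_log (div_pos (QQ_pos _ _) (QQ_pos _ _))]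

end seg

section rel

variable {D : Set ℂ} {Λ : ℝ → Finset Site} {n : ℕ} {ρ : Fin n → ℂ}

/-- the ratio of the disorder correlations when one point moves from `z` to `w` -/
noncomputable def qr (Λ : ℝ → Finset Site) (ρ : Fin n → ℂ) (z w : ℂ) (a : ℝ) : ℝ :=
  AL.QQ (Λ a) (fl a w ::ₘ fam fun p => fl a (ρ p)) 0 /
    AL.QQ (Λ a) (fl a z ::ₘ fam fun p => fl a (ρ p)) 0

/-- the ratio has a positive limit -/
def Rl (Λ : ℝ → Finset Site) (ρ : Fin n → ℂ) (z w : ℂ) : Prop := ∃ q > 0, Tendsto (qr Λ ρ z w) (𝓝[>] 0) (𝓝 q)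

theorem Rl.symm {z w : ℂ} (h : Rl Λ ρ z w) : Rl Λ ρ w z := by
  obtain ⟨q, hq, h⟩ := h
  refine ⟨q⁻¹, inv_pos.2 hq, (h.inv₀ hq.ne').congr fun a => ?_⟩
  unfold qr
  rw [inv_div]

theorem Rl.trans {z w v : ℂ} (h : Rl Λ ρ z w) (h' : Rl Λ ρ w v) : Rl Λ ρ z v := by
  obtain ⟨q, hq, h⟩ := h
  obtain ⟨q', hq', h'⟩ := h'
  refine ⟨q * q', mul_pos hq hq', (h.mul h').congr fun a => ?_⟩
  unfold qr
  have h1 := (QQ_pos (Λ a) (fl a w ::ₘ fam fun p => fl a (ρ p))).ne'
  have h2 := (QQ_pos (Λ a) (fl a z ::ₘ fam fun p => fl a (ρ p))).ne'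
  field_simp

/-- Moving along a segment. -/
theorem seg_rel (hΛ : Fam0 D Λ) (h0 : ∀ e, T0 D n e) {d : Site} (h5 : T5 D n d) {z : ℂ} {s : ℝ} (hs0 : 0 ≤ s)
    (hs : ∀ τ ∈ Set.Icc 0 s, Cf D ρ (z + τ * cx d)) : Rl Λ ρ z (z + s * cx d) := by
  obtain ⟨L, hL⟩ := seg_lim hΛ h5 hs0 hs
  refine ⟨Real.exp L, Real.exp_pos _, ?_⟩
  have hend : Cf D ρ (z + s * cx d) := hs s ⟨hs0, le_rfl⟩
  set w : ℂ := z + s * cx d with hw
  have hfl : ∀ a : ℝ, 0 < a → |((⌊s / a⌋₊ : ℕ) : ℝ) - s / a| ≤ 1 := by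
    intro a ha
    have h1 := Nat.floor_le (div_nonneg hs0 ha.le)
    have h2 := Nat.lt_floor_add_one (s / a)
    rw [abs_le]; constructor <;> linarith
  have h1 : Tendsto (fun a : ℝ =>
      AL.QQ (Λ a) (fl a w ::ₘ fam fun p => fl a (ρ p)) 0 /
      AL.QQ (Λ a) ((fl a z + ⌊s / a⌋₊ • d) ::ₘ fam fun p => fl a (ρ p)) 0)
      (𝓝[>] 0) (𝓝 1) := by
    rw [tendsto_iff_ultrafilter]
    intro U hU
    have hpos : ∀ᶠ a in (U : Filter ℝ), 0 < a := hU self_mem_nhdsWithin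
    have hfin : (Set.Icc (-(|d.1| + 2), -(|d.2| + 2)) (|d.1| + 2, |d.2| + 2) : Set Site).Finite :=
      Set.finite_Icc _ _
    have hev : ∀ᶠ a in (U : Filter ℝ),
        ∃ e ∈ (Set.Icc (-(|d.1| + 2), -(|d.2| + 2)) (|d.1| + 2, |d.2| + 2) : Set Site),
          fl a w = (fl a z + ⌊s / a⌋₊ • d) + e := by
      filter_upwards [hpos] with a ha
      refine ⟨fl a w - (fl a z + ⌊s / a⌋₊ • d), ?_, by abel⟩
      have e1 := floor_diff (z.re / a) (w.re / a) (s / a) ⌊s / a⌋₊ d.1 (hfl a ha) (by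
        rw [hw]; simp [cx]; ring)
      have e2 := floor_diff (z.im / a) (w.im / a) (s / a) ⌊s / a⌋₊ d.2 (hfl a ha) (by
        rw [hw]; simp [cx]; ring)
      rw [abs_le] at e1 e2
      exact ⟨⟨e1.1, e2.1⟩, ⟨e1.2, e2.2⟩⟩
    obtain ⟨e, _, he⟩ := (Ultrafilter.eventually_exists_mem_iff hfin).1 hev
    have ha : Tendsto (fun a : ℝ => a) U (𝓝[>] 0) := hU
    have hs1 : Tendsto (fun a : ℝ => a * ((⌊s / a⌋₊ : ℕ) : ℝ)) U (𝓝 s) :=
      near_lim (B := 1) ha tendsto_const_nhds (hpos.mono fun a h => hfl a h)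
    have hz := Tc_fl (l := (U : Filter ℝ)) ha z
    have hf : FD D (U : Filter ℝ) (fun a => a) (fun a => Λ a) (fun a p => fl a (ρ p))
        (fun a => fl a z + ⌊s / a⌋₊ • d) ρ w := by
      refine ⟨ha, hΛ.comp ha, fun p => Tc_fl ha _, ?_, ?_⟩
      · have := hz.1.add (hs1.mul_const (d.1 : ℝ))
        have e : w.re = z.re + s * (d.1 : ℝ) := by rw [hw]; simp [cx]
        rw [e]
        refine this.congr fun x => ?_
        simp; ring
      · have := hz.2.add (hs1.mul_const (d.2 : ℝ))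
        have e : w.im = z.im + s * (d.2 : ℝ) := by rw [hw]; simp [cx]
        rw [e]
        refine this.congr fun x => ?_
        simp; ring
    have h2 := h0 e ρ w hend ℝ U _ _ _ _ hf
    refine h2.congr' (he.mono fun a h => ?_)
    unfold rat
    rw [← h]
  have h2 := h1.mul hL
  rw [one_mul] at h2
  refine h2.congr fun a => ?_
  unfold qr
  have h3 := (QQ_pos (Λ a) ((fl a z + ⌊s / a⌋₊ • d) ::ₘ fam fun p => fl a (ρ p))).ne'
  have h4 := (QQ_pos (Λ a) (fl a z ::ₘ fam fun p => fl a (ρ p))).ne'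
  field_simp

/-- Nearby points are related. -/
theorem loc_rel (hD : IsOpen D) (hL : Fam0 D Λ) (h0 : ∀ e, T0 D n e) (h5 : ∀ d ∈ ({(1, 1), (-1, -1), (-1, 1), (1, -1)} : Set Site),
    T5 D n d) (hr : ∀ p, ρ p ∈ D) (hi : Function.Injective ρ) {z : ℂ}
    (hz : z ∈ D \ Set.range ρ) : ∀ᶠ w in 𝓝[D \ Set.range ρ] z, Rl Λ ρ z w := by
  have hopen : IsOpen (D \ Set.range ρ) :=
    hD.sdiff (Set.finite_range ρ).isClosed
  obtain ⟨r, hr0, hball⟩ := Metric.isOpen_iff.1 hopen z hz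
  refine mem_nhdsWithin_of_mem_nhds (Filter.mem_of_superset (Metric.ball_mem_nhds z hr0) ?_)
  intro w hw
  have hcf : ∀ p ∈ Metric.ball z r, Cf D ρ p := fun p hp =>
    ⟨hr, hi, (hball hp).1, fun q hq => (hball hp).2 ⟨q, hq⟩⟩
  have hwn : (w - z).re ^ 2 + (w - z).im ^ 2 < r ^ 2 := by
    rw [Metric.mem_ball, dist_eq_norm] at hw
    have := pow_lt_pow_left₀ hw (norm_nonneg _) two_ne_zero
    rw [Complex.sq_norm, Complex.normSq_apply] at this
    nlinarith [this]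
  set x := (w - z).re with hx
  set y := (w - z).im with hy
  set α := (x + y) / 2 with hα
  set β := (y - x) / 2 with hβ
  have hsum : 2 * α ^ 2 + 2 * β ^ 2 = x ^ 2 + y ^ 2 := by rw [hα, hβ]; ring
  have hw' : w = z + α * cx (1, 1) + β * cx (-1, 1) := by
    apply Complex.ext
    · simp only [Complex.add_re, Complex.mul_re, Complex.ofReal_re, Complex.ofReal_im, cx]
      push_cast
      have : w.re = z.re + x := by rw [hx]; simp
      rw [this, hα, hβ]; ring
    · simp only [Complex.add_im, Complex.mul_im, Complex.ofReal_re, Complex.ofReal_im, cx]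
      push_cast
      have : w.im = z.im + y := by rw [hy]; simp
      rw [this, hα, hβ]; ring
  have hp : ∀ s t : ℝ, s ^ 2 ≤ α ^ 2 → t ^ 2 ≤ β ^ 2 →
      Cf D ρ (z + s * cx (1, 1) + t * cx (-1, 1)) := by
    intro s t hs ht
    refine hcf _ (ball_of_sq hr0 ?_)
    have e1 : (z + s * cx (1, 1) + t * cx (-1, 1) - z).re = s - t := by
      simp only [Complex.add_re, Complex.sub_re, Complex.mul_re, Complex.ofReal_re,
        Complex.ofReal_im, cx]
      push_cast; ring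
    have e2 : (z + s * cx (1, 1) + t * cx (-1, 1) - z).im = s + t := by
      simp only [Complex.add_im, Complex.sub_im, Complex.mul_im, Complex.ofReal_re,
        Complex.ofReal_im, cx]
      push_cast; ring
    rw [e1, e2]
    nlinarith
  have hc1 : cx (-1, -1) = -cx (1, 1) := by unfold cx; apply Complex.ext <;> simp
  have hc2 : cx (1, -1) = -cx (-1, 1) := by unfold cx; apply Complex.ext <;> simp
  have r1 : Rl Λ ρ z (z + α * cx (1, 1)) := by
    rcases le_total 0 α with h | h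
    · refine seg_rel hL h0 (h5 (1, 1) (by simp)) h fun τ hτ => ?_
      have := hp τ 0 (by nlinarith [hτ.1, hτ.2]) (by nlinarith [sq_nonneg β])
      simpa using this
    · have h1 := seg_rel (ρ := ρ) (z := z) hL h0 (h5 (-1, -1) (by simp)) (neg_nonneg.2 h)
        fun τ hτ => by
          have := hp (-τ) 0 (by nlinarith [hτ.1, hτ.2]) (by nlinarith [sq_nonneg β])
          rw [hc1]
          simpa using this
      rw [hc1] at h1
      simpa using h1
  have r2 : Rl Λ ρ (z + α * cx (1, 1)) w := by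
    rw [hw']
    rcases le_total 0 β with h | h
    · refine seg_rel hL h0 (h5 (-1, 1) (by simp)) h fun τ hτ => ?_
      exact hp α τ le_rfl (by nlinarith [hτ.1, hτ.2])
    · have h1 := seg_rel (ρ := ρ) (z := z + α * cx (1, 1)) hL h0 (h5 (1, -1) (by simp))
        (neg_nonneg.2 h) fun τ hτ => by
          have := hp α (-τ) le_rfl (by nlinarith [hτ.1, hτ.2])
          rw [hc2]
          simpa using this
      rw [hc2] at h1
      simpa using h1
  exact r1.trans r2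

end rel

/-! ### all pairs of sets -/

theorem all_rel {Ω : Dom} {Λ : ℝ → Finset Site} (hL : Fam0 Ω.D Λ) {n : ℕ} {ρ : Fin n → ℂ}
    (h5 : T5 Ω.D n (-1, -1)) (a3 : T5 Ω.D n (1, -1)) (h0 : T0 Ω.D n (1, 0))
    (hr : ∀ p, ρ p ∈ Ω.D) (hi : Function.Injective ρ) {z w : ℂ} (hz : z ∈ Ω.D \ Set.range ρ)
    (hw : w ∈ Ω.D \ Set.range ρ) : Rl Λ ρ z w := by
  have h0' := T0_all h5 h0
  have a1 : T5 Ω.D n (1, 1) := by simpa using h5.neg
  have a2 : T5 Ω.D n (-1, 1) := by simpa using a3.neg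
  have h5' : ∀ d ∈ ({(1, 1), (-1, -1), (-1, 1), (1, -1)} : Set Site), T5 Ω.D n d := by
    intro d hd
    simp only [Set.mem_insert_iff, Set.mem_singleton_iff] at hd
    rcases hd with rfl | rfl | rfl | rfl
    · exact a1
    · exact h5
    · exact a2
    · exact a3
  exact (Ω.conn _ (Set.finite_range ρ)).induction₂ (Rl Λ ρ)
    (fun x hx => loc_rel Ω.op hL h0' h5' hr hi hx) (fun x y z _ _ _ => Rl.trans)
    (fun x y _ _ => Rl.symm) hz hw

theorem Mn_pos (Λ : ℝ → Finset Site) (a : ℝ) (X : Finset ℂ) : 0 < Mn Λ a X := MM_pos _ _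

theorem Mn_insert {Λ : ℝ → Finset Site} {a : ℝ} {z : ℂ} {X : Finset ℂ} (hz : z ∉ X) :
    Mn Λ a (insert z X) = H436.MM (Λ a) (fl a z ::ₘ X.val.map (fl a)) := by
  unfold Mn
  rw [Finset.insert_val_of_notMem hz, Multiset.map_cons]

/-- PATH: the ratios of disorder correlations converge. -/
theorem ratioM_of_grad {Ω : Dom} {Λ : ℝ → Finset Site} (hL : Fam0 Ω.D Λ)
    (h5 : ∀ n, T5 Ω.D n (-1, -1)) (h5' : ∀ n, T5 Ω.D n (1, -1)) (h0 : ∀ n, T0 Ω.D n (1, 0)) :
    RatioM Ω.D Λ := by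
  intro X X' hX hX' hc he
  have key : ∀ (k : ℕ) (X : Finset ℂ), (∀ z ∈ X, z ∈ Ω.D) → X.card = X'.card → Even X.card →
      (X' \ X).card = k →
      ∃ q > 0, Tendsto (fun a => Mn Λ a X / Mn Λ a X') (𝓝[>] 0) (𝓝 q) := by
    intro k
    induction k with
    | zero =>
      intro X _ hc _ hk
      have h1 : X' ⊆ X := by
        rw [← sdiff_eq_empty_iff_subset]; exact card_eq_zero.1 hk
      have h2 : X' = X := eq_of_subset_of_card_le h1 hc.le
      subst h2
      refine ⟨1, one_pos, ?_⟩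
      have : (fun a => Mn Λ a X' / Mn Λ a X') = fun _ => 1 := by
        funext a; exact div_self (Mn_pos Λ a X').ne'
      rw [this]
      exact tendsto_const_nhds
    | succ k ih =>
      intro X hX hc he hk
      obtain ⟨w, hw⟩ : (X' \ X).Nonempty := card_pos.1 (by omega)
      rw [Finset.mem_sdiff] at hw
      have hk2 : (X \ X').card = k + 1 := by
        rw [← hk]
        exact card_sdiff_comm hc
      obtain ⟨z, hz⟩ : (X \ X').Nonempty := card_pos.1 (by omega)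
      rw [Finset.mem_sdiff] at hz
      set Y := X.erase z with hY
      have hzY : z ∉ Y := notMem_erase z X
      have hXY : X = insert z Y := (insert_erase hz.1).symm
      have hwY : w ∉ Y := fun h => hw.2 (erase_subset _ _ h)
      have hYc : Y.card + 1 = X.card := by rw [hXY, card_insert_of_notMem hzY]
      let ρ : Fin Y.card → ℂ := fun p => (Y.equivFin.symm p : ℂ)
      have hρ : univ.val.map ρ = Y.val := by
        have h1 : (univ : Finset (Fin Y.card)).val.map ρ =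
            ((univ : Finset (Fin Y.card)).map ⟨ρ, fun p q h =>
              Y.equivFin.symm.injective (Subtype.ext h)⟩).val := rfl
        rw [h1]
        congr 1
        ext x
        rw [Finset.mem_map]
        constructor
        · rintro ⟨p, _, rfl⟩
          exact (Y.equivFin.symm p).2
        · intro h
          exact ⟨Y.equivFin ⟨x, h⟩, mem_univ _, by
            change ((Y.equivFin.symm (Y.equivFin ⟨x, h⟩) : Y) : ℂ) = x
            rw [Equiv.symm_apply_apply]⟩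
      have hfam : ∀ a : ℝ, fam (fun p => fl a (ρ p)) = Y.val.map (fl a) := by
        intro a
        unfold fam
        rw [← hρ, Multiset.map_map]
        rfl
      have hrange : Set.range ρ = (Y : Set ℂ) := by
        ext x
        constructor
        · rintro ⟨p, rfl⟩
          exact (Y.equivFin.symm p).2
        · intro h
          exact ⟨Y.equivFin ⟨x, h⟩, by simp [ρ]⟩
      have hYD : ∀ x ∈ Y, x ∈ Ω.D := fun x hx => hX x (erase_subset _ _ hx)
      obtain ⟨q, hq, hlim⟩ := all_rel hL (ρ := ρ) (z := w) (w := z) (h5 _) (h5' _) (h0 _)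
        (fun p => hYD _ (Y.equivFin.symm p).2)
        (fun p q h => Y.equivFin.symm.injective (Subtype.ext h))
        ⟨hX' w hw.1, by rw [hrange]; exact hwY⟩ ⟨hX z hz.1, by rw [hrange]; exact hzY⟩
      obtain ⟨q', hq', hlim'⟩ := ih (insert w Y) (fun x hx => by
        rcases mem_insert.1 hx with rfl | h
        · exact hX' _ hw.1
        · exact hYD x h) (by rw [card_insert_of_notMem hwY, hYc, hc])
        (by rw [card_insert_of_notMem hwY, hYc]; exact he) (by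
          have h1 : X' \ insert w Y = (X' \ X).erase w := by
            ext x
            simp only [Finset.mem_sdiff, mem_insert, mem_erase, hXY, not_or]
            constructor
            · rintro ⟨h1, h2, h3⟩
              refine ⟨h2, h1, ?_, h3⟩
              rintro rfl; exact hz.2 h1
            · rintro ⟨h1, h2, h3, h4⟩
              exact ⟨h2, h1, h4⟩
          rw [h1, card_erase_of_mem (Finset.mem_sdiff.2 hw), hk]
          rfl)
      refine ⟨q * q', mul_pos hq hq', (hlim.mul hlim').congr' ?_⟩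
      have hpos : ∀ᶠ a in 𝓝[>] (0:ℝ), 0 < a := self_mem_nhdsWithin
      filter_upwards [hpos] with a ha
      have e1 : ∀ v, v ∉ Y → Mn Λ a (insert v Y) =
          AL.QQ (Λ a) (fl a v ::ₘ fam fun p => fl a (ρ p)) 0 / AL.QQ (Λ a) 0 0 := by
        intro v hv
        rw [Mn_insert hv, hfam]
        rfl
      rw [hXY, e1 z hzY, e1 w hwY]
      unfold qr
      have h1 := (QQ_pos (Λ a) 0).ne'
      have h2 := (QQ_pos (Λ a) (fl a w ::ₘ fam fun p => fl a (ρ p))).ne'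
      have h3 := (Mn_pos Λ a X').ne'
      field_simp
  exact key _ X hX hc he rfl

end Vale.Agent.P144Q.B
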