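import Vale.Agent.P144Q.BPath2
import Vale.Agent.P144.H365.XjT2

/-!
The logarithmic gradients of the disorder correlations in a general domain.
-/

namespace Vale.Agent.P144Q.B

open MeasureTheory Filter Topology Vale.Agent.P144 Complex
open Vale.Agent.P144.H365 (vE wE RR_unit theF_unit gv gf BData bdata_spin gf_side gf_sq ResNN
  F2_sgn gq_sgn c0 c0_ne c0_sq s2pi_pos W RelO ep pt_fixed s22 pt_of_Tc far_ev)

section

variable {Ω : Dom} {ι κ : Type} [Fintype κ] {l : Ultrafilter ι} {a : ι → ℝ}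
    {N : ι → Finset Site} {r : κ → ι → Site} {v : ι → Site} {ζ : κ → ℂ} {ω : ℂ}

theorem xj_spr (ha : Tendsto a l (𝓝[>] 0)) (hN : Appr Ω.D (l : Filter ι) a N)
    (hv : Tendsto (fun k => H170.pt (a k) (v k)) l (𝓝 ω)) (hω : ω ∈ Ω.D) :
    ∀ᶠ k in l, AL.Spr (N k) (H170.tauF fun p => r p k) (H170.theF fun _ : Unit => v k)
      (jA (N k) (fun p => r p k) (v k)) (jB (N k) (fun p => r p k) (v k))
      (jC (N k) (fun p => r p k) (v k)) (jD (N k) (fun p => r p k) (v k)) := by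
  filter_upwards [hN.mem ha hω hv] with k k1
  have h1 := AL.spr_QQ (Λ := N k) (H170.rM fun p => r p k) (A := {v k}) (by
    intro x hx
    rw [Multiset.mem_singleton] at hx
    subst hx
    exact k1) (AL.zj (N k) (H170.rM fun p => r p k) (v k))
  rw [H170.tauR_rM, H170.theA_single] at h1
  exact h1

theorem xj_relOn (ha : Tendsto a l (𝓝[>] 0)) (hN : Appr Ω.D (l : Filter ι) a N)
    (hv : Tendsto (fun k => H170.pt (a k) (v k)) l (𝓝 ω)) (hω : ω ∈ Ω.D) :
    H170.RelOn (l : Filter ι) a Ω.D r (fun _ : Unit => v)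
      (fun k => jA (N k) (fun p => r p k) (v k))
      (fun k => jB (N k) (fun p => r p k) (v k))
      (fun k => jC (N k) (fun p => r p k) (v k))
      (fun k => jD (N k) (fun p => r p k) (v k)) := by
  intro z hz
  filter_upwards [(H170.tendsto_fst_nf z).eventually (xj_spr (r := r) ha hN hv hω),
    hN.near ha hz 1] with kx g0 g2
  obtain ⟨k, x, y⟩ := kx
  have g1 := H170.SRel.of_spr g0 x y
  simp only at g1 g2
  have m1 := g2 (x, y + 1) (by simp) (by simp)
  have m2 := g2 (x + 1, y + 1) (by simp) (by simp)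
  have m3 := g2 (x + 1, y) (by simp) (by simp)
  have k1 := g1.V m1 m2
  have k2 := g1.H m3 m2
  unfold H170.Rel
  simp only [Prod.mk_add_mk, add_zero]
  exact ⟨k1.1, k1.2, k2.1, k2.2⟩

/-- The local data at the source. -/
theorem xj_b (ha : Tendsto a l (𝓝[>] 0))
    (hN : Appr Ω.D (l : Filter ι) a N)
    (hr : ∀ p, Tendsto (fun k => H170.pt (a k) (r p k)) l (𝓝 (ζ p)))
    (hv : Tendsto (fun k => H170.pt (a k) (v k)) l (𝓝 ω)) (hω : ω ∈ Ω.D)
    {Hs Hf : ι → Site → ℝ} {q : ℂ → ℂ} {h : ℂ → ℝ}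
    (hG : GLim Ω (l : Filter ι) a r (fun _ : Unit => v) ζ (fun _ => ω)
        (fun k => jA (N k) (fun p => r p k) (v k))
        (fun k => jB (N k) (fun p => r p k) (v k))
        (fun k => jC (N k) (fun p => r p k) (v k))
        (fun k => jD (N k) (fun p => r p k) (v k)) Hs Hf q h)
    {S : κ → Prop} {S' : Empty → Prop} (hP : ω ∈ H170.VS S S' ζ wE) : ∃ R > 0,
    BData (l : Filter ι) a R
      (fun k x => gf S S' r (vE ι) k (((v k + x).1 : ℝ) + 1 / 4) *
        jA (N k) (fun p => r p k) (v k) (v k + x))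
      (fun k x => gf S S' r (vE ι) k (((v k + x).1 : ℝ) + 3 / 4) *
        jB (N k) (fun p => r p k) (v k) (v k + x))
      (fun k x => gf S S' r (vE ι) k (((v k + x).1 : ℝ) + 1 / 4) *
        jC (N k) (fun p => r p k) (v k) (v k + x))
      (fun k x => gf S S' r (vE ι) k (((v k + x).1 : ℝ) + 3 / 4) *
        jD (N k) (fun p => r p k) (v k) (v k + x))
      (gv S S' ζ ω q) := by
  obtain ⟨R, hR, hRs⟩ := Metric.mem_nhds_iff.1 (((H170.VS_open S S' ζ wE).inter Ω.op).mem_nhds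
    ⟨hP, hω⟩)
  refine ⟨R, hR, ?_⟩
  have hmk : ∀ z ∈ Metric.ball ω R, z ≠ ω → z ∈ Ω.D \ H170.Mk ζ (fun _ : Unit => ω) := by
    intro z hz hne
    refine ⟨(hRs hz).2, ?_⟩
    rw [H170.notMem_Mk]
    exact ⟨(H170.VS_ne (hRs hz).1).1, fun _ => hne⟩
  refine bdata_spin (v := vE ι) (ω := wE) ha hr (fun q => q.elim) hv hR
    (fun z hz => (hRs hz).1) ?_ (hG.diff.mono fun z hz => (hRs hz).2) ?_ ?_
  · have h1 := xj_relOn (r := r) ha hN hv hω ω hω
    refine h1.mono fun kx h2 => ?_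
    simp only [theF_unit] at h2
    exact h2
  · intro z hz hne
    have h1 := hG.slim.A z (hmk z hz hne)
    refine h1.congr fun kx => ?_
    rw [RR_unit]
    rfl
  · intro z hz hne
    have h1 := hG.slim.E z (hmk z hz hne)
    refine h1.congr fun kx => ?_
    rw [RR_unit]
    rfl

end

section glim

variable {Ω : Dom} {ι κ κ' : Type} [Fintype κ] [Fintype κ'] {l : Filter ι} {a : ι → ℝ}
  {r : κ → ι → Site} {v : κ' → ι → Site} {ζ : κ → ℂ} {ω : κ' → ℂ} {A B C E Hs Hf : ι → Site → ℝ}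
  {q : ℂ → ℂ} {h : ℂ → ℝ}

theorem glim_res (hG : GLim Ω l a r v ζ ω A B C E Hs Hf q h) (p : κ)
    (h1 : ∀ p' ≠ p, ζ p' ≠ ζ p) (h2 : ∀ p', ω p' ≠ ζ p) (hD : ζ p ∈ Ω.D) :
    ResNN ζ ω q (ζ p) := by
  classical
  obtain ⟨r1, r2⟩ := hG.resZ p h1 h2
  set R := (⟨-1 / 2, 1 / 2⟩ : ℂ) * (q (ζ p) ^ 2 / H170.PZ ζ ω p (ζ p)) with hR
  refine ⟨R.re, r2, ?_⟩
  have e1 : ((R.re : ℝ) : ℂ) = R := by apply Complex.ext <;> simp [r1]
  rw [e1]
  have hne : H170.PZ ζ ω p (ζ p) ≠ 0 := by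
    unfold H170.PZ
    refine mul_ne_zero (Finset.prod_ne_zero_iff.2 fun p' hp' => sub_ne_zero.2 ?_)
      (Finset.prod_ne_zero_iff.2 fun p' _ => sub_ne_zero.2 (h2 p').symm)
    exact (h1 p' (Finset.ne_of_mem_erase hp')).symm
  have hq : ContinuousAt q (ζ p) := (hG.diff.differentiableAt (Ω.op.mem_nhds hD)).continuousAt
  have hc : ContinuousAt (fun z => (⟨-1 / 2, 1 / 2⟩ : ℂ) * (q z ^ 2 / H170.PZ ζ ω p z)) (ζ p) :=
    continuousAt_const.mul ((hq.pow 2).div (H170.PZ_diff p _).continuousAt hne)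
  refine (hc.tendsto.mono_left nhdsWithin_le_nhds).congr' ?_
  filter_upwards [self_mem_nhdsWithin] with z hz
  have hz' : z - ζ p ≠ 0 := sub_ne_zero.2 hz
  unfold H170.gq
  rw [H170.PP_eqZ p]
  by_cases hp : H170.PZ ζ ω p z = 0
  · rw [hp]; simp
  · field_simp

theorem cont_unique {q1 q2 : ℂ → ℂ} (hζ : ∀ p, ζ p ∈ Ω.D) (hω : ∀ p, ω p ∈ Ω.D)
    (hinj : Function.Injective (Sum.elim ζ ω))
    (h1 : DifferentiableOn ℂ q1 Ω.D) (h2 : DifferentiableOn ℂ q2 Ω.D)
    (b1 : Ω.Bd (H170.F2 ζ ω q1)) (b2 : Ω.Bd (H170.F2 ζ ω q2))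
    (r1 : ∀ p, ResNN ζ ω q1 (ζ p)) (r2 : ∀ p, ResNN ζ ω q2 (ζ p))
    (hs : ∀ p, q1 (ω p) = q2 (ω p)) : ∀ z ∈ Ω.D, q1 z = q2 z := fun z hz =>
  sub_eq_zero.1 (Ω.uni κ κ' ζ ω (fun z => q1 z - q2 z) q1 q2 ∅ hζ hω hinj Set.finite_empty
    (Set.empty_subset _) (fun z hz => absurd hz (Set.notMem_empty z)) (h1.sub h2)
    (fun _ _ _ => rfl) (fun p => (h1.differentiableAt (Ω.op.mem_nhds (hζ p))).continuousAt)
    (fun p => (h2.differentiableAt (Ω.op.mem_nhds (hζ p))).continuousAt) b1 b2 r1 r2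
    (fun p => sub_eq_zero.2 (hs p)) z hz)

end glim



section

variable {Ω : Dom} {ι κ : Type} [Fintype κ] {l : Ultrafilter ι} {a : ι → ℝ}
    {N : ι → Finset Site} {r : κ → ι → Site} {v : ι → Site} {ζ : κ → ℂ} {ω : ℂ}

/-- The normalised solutions of the boundary value problem. -/
structure NSol (Ω : Dom) (S : κ → Prop) (S' : Empty → Prop) (ζ : κ → ℂ) (ω : ℂ) (q : ℂ → ℂ) : Prop where
  diff : DifferentiableOn ℂ q Ω.D
  bdc : Ω.Bd (H170.F2 ζ (fun _ : Unit => ω) q)
  res : ∀ p, ResNN ζ (fun _ : Unit => ω) q (ζ p)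
  nor : ((√(2 * Real.pi) / 2 : ℝ) : ℂ) * (c0 * gv S S' ζ ω q 0) = 1

theorem NSol.unique {S : κ → Prop} {S' : Empty → Prop} (hP : ω ∈ H170.VS S S' ζ wE)
    (hζ : ∀ p, ζ p ∈ Ω.D) (hω : ω ∈ Ω.D) (hinj : Function.Injective ζ) {q1 q2 : ℂ → ℂ}
    (h1 : NSol Ω S S' ζ ω q1) (h2 : NSol Ω S S' ζ ω q2) : ∀ z ∈ Ω.D, q1 z = q2 z := by
  refine cont_unique (ω := fun _ : Unit => ω) hζ (fun _ => hω) ?_ h1.diff h2.diff h1.bdc h2.bdc
    h1.res h2.res ?_
  · intro x y hxy
    rcases x with x | x <;> rcases y with y | y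
    · exact congrArg Sum.inl (hinj hxy)
    · exact absurd hxy.symm ((H170.VS_ne hP).1 x)
    · exact absurd hxy ((H170.VS_ne hP).1 y)
    · rfl
  · intro _
    have hne := H170.RS_ne hP
    have e1 := h1.nor
    have e2 := h2.nor
    have hs : ((√(2 * Real.pi) / 2 : ℝ) : ℂ) ≠ 0 := by exact_mod_cast s2pi_pos.ne'
    have e3 : gv S S' ζ ω q1 0 = gv S S' ζ ω q2 0 :=
      mul_left_cancel₀ c0_ne (mul_left_cancel₀ hs (e1.trans e2.symm))
    unfold gv at e3
    rw [add_zero] at e3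
    exact (div_left_inj' hne).1 e3

/-- Everything about one ultrafilter. -/
theorem xj_inst (hX : SXj Ω) (ha : Tendsto a l (𝓝[>] 0))
    (hN : Appr Ω.D (l : Filter ι) a N)
    (hr : ∀ p, Tendsto (fun k => H170.pt (a k) (r p k)) l (𝓝 (ζ p)))
    (hv : Tendsto (fun k => H170.pt (a k) (v k)) l (𝓝 ω))
    (hζ : ∀ p, ζ p ∈ Ω.D) (hω : ω ∈ Ω.D) (hinj : Function.Injective ζ)
    (hir : ∀ᶠ k in l, Function.Injective fun p => r p k)
    (hc : ∀ᶠ k in l, ∀ p, v k ∉ AL.cnr (r p k))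
    {S : κ → Prop} {S' : Empty → Prop} (hP : ω ∈ H170.VS S S' ζ wE) :
    ∃ q : ℂ → ℂ, NSol Ω S S' ζ ω q ∧
      Tendsto (fun k => (a k)⁻¹ * (jD (N k) (fun p => r p k) (v k) (v k + (-1, -1)) - 1)) l
        (𝓝 (-(√(Real.pi / 2) / 2 * ((1 + I) * (c0 * deriv (gv S S' ζ ω q) 0)).re))) ∧
      Tendsto (fun k => jD (N k) (fun p => r p k) (v k) (v k + (-1, -1))) l (𝓝 1) ∧
      Tendsto (fun k => jB (N k) (fun p => r p k) (v k) (v k + (-1, 0)) +
        jC (N k) (fun p => r p k) (v k) (v k + (0, -1))) l (𝓝 (2 * ((1 + W (-1, 0)) / √2))) := by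
  classical
  obtain ⟨Hs, Hf, q, h, -, hG⟩ := hX ha hN hr hv hζ hω hir hc
  obtain ⟨R, hR, hB⟩ := xj_b ha hN hr hv hω hG hP
  -- the gauge factor at the source
  set σ : ι → ℝ := fun k => gf S S' r (vE ι) k (((v k).1 : ℝ) + 1 / 4) with hσ
  have hσ2 : ∀ k, σ k * σ k = 1 := fun k => gf_sq _ _ _ _ _
  have hvd : ∀ᶠ k in l, v k ∈ N k := hN.mem ha hω hv
  have hjA : ∀ᶠ k in l, jA (N k) (fun p => r p k) (v k) (v k) = 1 :=
    hvd.mono fun k hk => AL.xA_self _ _ _ hk
  have eA : ∀ᶠ k in l, gf S S' r (vE ι) k (((v k + (0, 0)).1 : ℝ) + 1 / 4) *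
      jA (N k) (fun p => r p k) (v k) (v k + (0, 0)) = σ k := by
    filter_upwards [hjA] with k hk
    have : v k + (0, 0) = v k := add_zero _
    rw [this, hk, mul_one]
  have eE : ∀ k, gf S S' r (vE ι) k (((v k + (-1, -1)).1 : ℝ) + 3 / 4) *
      jD (N k) (fun p => r p k) (v k) (v k + (-1, -1)) =
      σ k * jD (N k) (fun p => r p k) (v k) (v k + (-1, -1)) := by
    intro k
    have e1 : (((v k + (-1, -1)).1 : ℤ) : ℝ) + 3 / 4 = ((v k).1 : ℝ) - 1 / 4 := by
      simp only [Prod.fst_add]; push_cast; ring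
    rw [e1, gf_side]
  -- limits
  have t1 := hB.t1 ha hR
  have t1e := hB.t1e ha hR
  have t1x := hB.t1x ha hR
  have t5 := hB.t5 ha hR
  set τ := √(2 * Real.pi) / 2 * (c0 * gv S S' ζ ω q 0).re with hτ
  have tσ : Tendsto σ l (𝓝 τ) := t1.congr' eA
  have hτ2 : τ * τ = 1 := by
    have h1 := tσ.mul tσ
    have h2 : Tendsto (fun k => σ k * σ k) l (𝓝 1) := by
      simp only [hσ2]; exact tendsto_const_nhds
    exact tendsto_nhds_unique h1 h2
  have tD : Tendsto (fun k => jD (N k) (fun p => r p k) (v k) (v k + (-1, -1))) l (𝓝 1) := by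
    have h1 := tσ.mul t1e
    rw [hτ2] at h1
    refine h1.congr fun k => ?_
    rw [eE, ← mul_assoc, hσ2, one_mul]
  have tG : Tendsto (fun k => (a k)⁻¹ * (jD (N k) (fun p => r p k) (v k) (v k + (-1, -1)) - 1)) l
      (𝓝 (τ * (-(√(Real.pi / 2) / 2 * ((1 + I) * (c0 * deriv (gv S S' ζ ω q) 0)).re)))) := by
    refine (tσ.mul t5).congr' ?_
    filter_upwards [eA] with k hk
    rw [eE, hk]
    linear_combination ((a k)⁻¹ * (jD (N k) (fun p => r p k) (v k) (v k + (-1, -1)) - 1)) *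
      hσ2 k
  -- the normalised solution
  have hres := hG.resO () (fun p' => ((H170.VS_ne hP).1 p').symm) (fun p' hp' => absurd rfl hp')
  have hPO : H170.PO ζ (fun _ : Unit => ω) () ω =
      H170.RS S S' ζ wE ω * H170.RS S S' ζ wE ω := by
    rw [H170.RS_sq]
    unfold H170.PO
    simp
  have hreal : (c0 * gv S S' ζ ω q 0).im = 0 := by
    have hne := H170.RS_ne hP
    set y := c0 * gv S S' ζ ω q 0 with hy
    have e1 : (⟨-1 / 2, 1 / 2⟩ : ℂ) * (q ω ^ 2 / H170.PO ζ (fun _ : Unit => ω) () ω) =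
        -(1 / 2 : ℝ) * (y * y) := by
      rw [hPO, hy]
      unfold gv
      rw [add_zero]
      have e2 : (⟨-1 / 2, 1 / 2⟩ : ℂ) = -(1 / 2 : ℝ) * (c0 ^ 2) := by
        rw [c0_sq]; apply Complex.ext <;> simp <;> norm_num
      rw [e2]
      field_simp
    rw [e1] at hres
    obtain ⟨h1, h2⟩ := hres
    have h3 : (y * y).im = 0 := by
      have : (-((1 / 2 : ℝ) : ℂ) * (y * y)).im = -(1 / 2) * (y * y).im := by
        rw [← ofReal_neg, im_ofReal_mul]
      rw [this] at h1; linarith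
    have h4 : 0 ≤ (y * y).re := by
      have : (-((1 / 2 : ℝ) : ℂ) * (y * y)).re = -(1 / 2) * (y * y).re := by
        rw [← ofReal_neg, re_ofReal_mul]
      rw [this] at h2; linarith
    rw [mul_im] at h3
    rw [mul_re] at h4
    by_contra hne'
    have h5 : y.re = 0 := by
      have : y.re * y.im = 0 := by linarith
      exact (mul_eq_zero.1 this).resolve_right hne'
    rw [h5] at h4
    have := mul_self_pos.2 hne'
    linarith
  have hgτ : ∀ z, gv S S' ζ ω (fun z => (τ : ℂ) * q z) z = (τ : ℂ) * gv S S' ζ ω q z := by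
    intro z; unfold gv; ring
  refine ⟨fun z => (τ : ℂ) * q z, ⟨?_, ?_, ?_, ?_⟩, ?_, tD, ?_⟩
  · exact hG.diff.const_mul _
  · have : H170.F2 ζ (fun _ : Unit => ω) (fun z => (τ : ℂ) * q z) =
        H170.F2 ζ (fun _ : Unit => ω) q := funext fun z => F2_sgn τ hτ2 z
    rw [this]
    exact hG.bdc
  · intro p
    obtain ⟨c, hc, hl⟩ := glim_res hG p (fun p' hp' h => hp' (hinj h))
      (fun _ => (H170.VS_ne hP).1 p) (hζ p)
    refine ⟨c, hc, hl.congr fun z => ?_⟩
    rw [gq_sgn τ hτ2]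
  · rw [hgτ]
    have e1 : c0 * gv S S' ζ ω q 0 = (((c0 * gv S S' ζ ω q 0).re : ℝ) : ℂ) := by
      apply Complex.ext
      · simp
      · rw [hreal, ofReal_im]
    have e2 : c0 * ((τ : ℂ) * gv S S' ζ ω q 0) = (τ : ℂ) * (c0 * gv S S' ζ ω q 0) := by ring
    have e3 : √(2 * Real.pi) / 2 * (τ * (c0 * gv S S' ζ ω q 0).re) = τ * τ := by rw [hτ]; ring
    rw [e2, e1, ← ofReal_mul, ← ofReal_mul, e3, hτ2, ofReal_one]
  · have e1 : deriv (gv S S' ζ ω fun z => (τ : ℂ) * q z) 0 = (τ : ℂ) * deriv (gv S S' ζ ω q) 0 := by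
      have : (gv S S' ζ ω fun z => (τ : ℂ) * q z) = fun z => (τ : ℂ) * gv S S' ζ ω q z :=
        funext hgτ
      rw [this, deriv_const_mul_field]
    rw [e1]
    refine tG.trans (le_of_eq ?_)
    congr 1
    have e2 : (1 + I) * (c0 * ((τ : ℂ) * deriv (gv S S' ζ ω q) 0)) =
        (τ : ℂ) * ((1 + I) * (c0 * deriv (gv S S' ζ ω q) 0)) := by ring
    rw [e2, re_ofReal_mul]
    ring
  · -- the values at distance one
    obtain ⟨ρ, hρ, k1⟩ := (H170.ev_nf (P := fun k x => RelO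
      (fun x => gf S S' r (vE ι) k (((v k + x).1 : ℝ) + 1 / 4) *
        jA (N k) (fun p => r p k) (v k) (v k + x))
      (fun x => gf S S' r (vE ι) k (((v k + x).1 : ℝ) + 3 / 4) *
        jB (N k) (fun p => r p k) (v k) (v k + x))
      (fun x => gf S S' r (vE ι) k (((v k + x).1 : ℝ) + 1 / 4) *
        jC (N k) (fun p => r p k) (v k) (v k + x))
      (fun x => gf S S' r (vE ι) k (((v k + x).1 : ℝ) + 3 / 4) *
        jD (N k) (fun p => r p k) (v k) (v k + x)) x)).1 hB.rel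
    have hnear : ∀ᶠ k in l, ‖H170.pt (a k) (-1, -1)‖ < ρ :=
      (pt_fixed ha (-1, -1)).eventually (gt_mem_nhds hρ)
    have key : Tendsto (fun k => σ k * ((2 * (gf S S' r (vE ι) k (((v k + (-1, -1)).1 : ℝ) + 3 / 4) *
      jD (N k) (fun p => r p k) (v k) (v k + (-1, -1))) +
      (gf S S' r (vE ι) k (((v k + (-1, 0)).1 : ℝ) + 1 / 4) *
        jA (N k) (fun p => r p k) (v k) (v k + (-1, 0)) +
      gf S S' r (vE ι) k (((v k + (0, -1)).1 : ℝ) + 1 / 4) *
        jA (N k) (fun p => r p k) (v k) (v k + (0, -1)))) / √2)) l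
      (𝓝 (τ * ((2 * τ + √(2 * Real.pi) * (c0 * gv S S' ζ ω q 0).re * W (-1, 0)) / √2))) :=
      tσ.mul (((t1e.const_mul 2).add t1x).div_const _)
    refine (key.congr' ?_).trans (le_of_eq ?_)
    · filter_upwards [k1, hnear] with k g1 g2
      have g3 := g1 (-1, -1) (by rw [sub_zero]; exact g2.le)
      have r2 := g3.h2
      have r4 := g3.h4
      have hep : ep (-1, -1) = -1 := by unfold ep; rw [if_pos (by simp)]
      rw [hep] at r4
      simp only [neg_add_cancel] at r2 r4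
      have e1 : (((v k + (-1, 0)).1 : ℤ) : ℝ) + 3 / 4 = ((v k).1 : ℝ) - 1 / 4 := by
        simp only [Prod.fst_add]; push_cast; ring
      have e2 : (((v k + (0, -1)).1 : ℤ) : ℝ) + 1 / 4 = ((v k).1 : ℝ) + 1 / 4 := by simp
      rw [e1, gf_side] at r2
      rw [e2] at r4 ⊢
      have s2 := s22
      have s0 : √2 ≠ 0 := by positivity
      have hσk := hσ2 k
      simp only [hσ] at hσk ⊢
      set G := gf S S' r (vE ι) k (((v k).1 : ℝ) + 1 / 4)
      set G' := gf S S' r (vE ι) k (((v k + (-1, 0)).1 : ℝ) + 1 / 4)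
      set D := gf S S' r (vE ι) k (((v k + (-1, -1)).1 : ℝ) + 3 / 4) *
        jD (N k) (fun p => r p k) (v k) (v k + (-1, -1))
      set A1 := jA (N k) (fun p => r p k) (v k) (v k + (-1, 0))
      set A2 := jA (N k) (fun p => r p k) (v k) (v k + (0, -1))
      set B1 := jB (N k) (fun p => r p k) (v k) (v k + (-1, 0))
      set C1 := jC (N k) (fun p => r p k) (v k) (v k + (0, -1))
      -- r2 : D = √2 * (G * B1) - G' * A1 ; r4 : D = -(-1 * (√2 * (G * C1) - G * A2))
      have e3 : 2 * D + (G' * A1 + G * A2) = √2 * (G * (B1 + C1)) := by linarith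
      rw [e3]
      field_simp
      linear_combination (B1 + C1) * hσk
    · congr 1
      have e1 : √(2 * Real.pi) * (c0 * gv S S' ζ ω q 0).re = 2 * τ := by rw [hτ]; ring
      rw [e1]
      have e2 : τ * ((2 * τ + 2 * τ * W (-1, 0)) / √2) = τ * τ * (2 * (1 + W (-1, 0)) / √2) := by ring
      rw [e2, hτ2]; ring

end

section final

open Vale.Agent.P144.H436 (rc)

variable {Ω : Dom}

/-- What the data of `helper436` give. -/
theorem fd_inst (hX : SXj Ω) {n : ℕ} {ρ : Fin n → ℂ} {ζ : ℂ} (hC : Cf Ω.D ρ ζ) {α : Type} {U : Ultrafilter α}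
    {a : α → ℝ} {N : α → Finset Site} {r : α → Fin n → Site} {v : α → Site}
    (h : FD Ω.D (U : Filter α) a N r v ρ ζ) {S : Fin n → Prop} {S' : Empty → Prop}
    (hP : ζ ∈ H170.VS S S' ρ wE) :
    ∃ q : ℂ → ℂ, NSol Ω S S' ρ ζ q ∧
      Tendsto (fun x => (a x)⁻¹ * (rat (N x) (r x) (v x) (-1, -1) - 1)) U
        (𝓝 (-(√(Real.pi / 2) / 2 * ((1 + I) * (c0 * deriv (gv S S' ρ ζ q) 0)).re))) ∧
      Tendsto (fun x => rat (N x) (r x) (v x) (-1, -1)) U (𝓝 1) ∧
      Tendsto (fun x => rat (N x) (r x) (v x) (-1, 0) + rat (N x) (r x) (v x) (0, -1)) U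
        (𝓝 (2 * ((1 + W (-1, 0)) / √2))) := by
  have hr : ∀ p, Tendsto (fun k => H170.pt (a k) (r k p)) U (𝓝 (ρ p)) := fun p => pt_of_Tc (h.r p)
  have hv := pt_of_Tc h.v
  have hir : ∀ᶠ k in (U : Filter α), Function.Injective fun p => r k p := by
    have : ∀ᶠ k in (U : Filter α), ∀ p p', p ≠ p' → r k p ≠ r k p' := by
      rw [eventually_all]; intro p
      rw [eventually_all]; intro p'
      by_cases hpp : p = p'
      · exact Eventually.of_forall fun k hk => absurd hpp hk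
      · filter_upwards [far_ev h.a0 (hr p) (hr p') (fun he => hpp (hC.inj he)) (0, 0)] with k hk _
        have : r k p' + (0, 0) = r k p' := add_zero _
        rwa [this] at hk
    filter_upwards [this] with k hk p p' hpp
    by_contra hne
    exact hk p p' hne hpp
  have hc : ∀ᶠ k in (U : Filter α), ∀ p, v k ∉ AL.cnr (r k p) := by
    rw [eventually_all]; intro p
    have hne := (hC.ne p).symm
    filter_upwards [far_ev h.a0 hv (hr p) hne (0, 0), far_ev h.a0 hv (hr p) hne (1, 0),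
      far_ev h.a0 hv (hr p) hne (0, 1), far_ev h.a0 hv (hr p) hne (1, 1)] with k k1 k2 k3 k4 hm
    unfold AL.cnr at hm
    simp only [Finset.mem_insert, Finset.mem_singleton] at hm
    rcases hm with hm | hm | hm | hm
    · apply k1; rw [hm]; ext <;> simp
    · apply k2; rw [hm]; ext <;> simp
    · apply k3; rw [hm]; ext <;> simp
    · apply k4; rw [hm]; ext <;> simp
  obtain ⟨q, h1, h2, h3, h4⟩ := xj_inst (r := fun p k => r k p) hX h.a0 h.aN hr hv hC.rD hC.zD hC.inj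
    hir hc hP
  have hvd : ∀ᶠ k in (U : Filter α), v k ∈ N k := h.aN.mem h.a0 hC.zD hv
  have eD : ∀ᶠ k in (U : Filter α), jD (N k) (fun p => r k p) (v k) (v k + (-1, -1)) =
      rat (N k) (r k) (v k) (-1, -1) := by
    filter_upwards [hvd] with k hk
    have := AL.xD_self (N k) (H170.rM fun p => r k p) (v k) hk
    have e : v k + (-1, -1) = ((v k).1 - 1, (v k).2 - 1) := by ext <;> simp <;> ring
    unfold jD
    rw [e, this]
    unfold rat
    rw [e]
    rfl
  have eB : ∀ᶠ k in (U : Filter α), jB (N k) (fun p => r k p) (v k) (v k + (-1, 0)) =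
      rat (N k) (r k) (v k) (-1, 0) := by
    filter_upwards [hvd] with k hk
    have := AL.xB_self (N k) (H170.rM fun p => r k p) (v k) hk
    have e : v k + (-1, 0) = ((v k).1 - 1, (v k).2) := by
      ext
      · simp; ring
      · simp
    unfold jB
    rw [e, this]
    unfold rat
    rw [e]
    rfl
  have eC : ∀ᶠ k in (U : Filter α), jC (N k) (fun p => r k p) (v k) (v k + (0, -1)) =
      rat (N k) (r k) (v k) (0, -1) := by
    filter_upwards [hvd] with k hk
    have := AL.xC_self (N k) (H170.rM fun p => r k p) (v k) hk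
    have e : v k + (0, -1) = ((v k).1, (v k).2 - 1) := by
      ext
      · simp
      · simp; ring
    unfold jC
    rw [e, this]
    unfold rat
    rw [e]
    rfl
  refine ⟨q, h1, h2.congr' ?_, h3.congr' eD, h4.congr' ?_⟩
  · filter_upwards [eD] with k hk; rw [hk]
  · filter_upwards [eB, eC] with k hk hk'; rw [hk, hk']

/-- **The logarithmic gradients converge.** -/
theorem t5 (hX : SXj Ω) (n : ℕ) : T5 Ω.D n (-1, -1) := by
  intro ρ ζ hC
  obtain ⟨S, S', hP⟩ := H170.exists_pattern (ζ := ρ) (ω := wE) (z := ζ)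
    (fun p => (hC.ne p).symm) (fun q => q.elim)
  by_cases hex : ∃ q, NSol Ω S S' ρ ζ q
  · obtain ⟨q0, hq0⟩ := hex
    refine ⟨-(√(Real.pi / 2) / 2 * ((1 + I) * (c0 * deriv (gv S S' ρ ζ q0) 0)).re), ?_⟩
    intro α U a N r v hFD
    obtain ⟨q, h1, h2, -, -⟩ := fd_inst hX hC hFD hP
    have hu := NSol.unique hP hC.rD hC.zD hC.inj h1 hq0
    have hd : deriv (gv S S' ρ ζ q) 0 = deriv (gv S S' ρ ζ q0) 0 := by
      refine Filter.EventuallyEq.deriv_eq ?_
      have hc : ContinuousAt (fun z : ℂ => ζ + z) 0 := by fun_prop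
      have : ∀ᶠ z in 𝓝 (0:ℂ), ζ + z ∈ Ω.D := by
        refine hc.eventually ?_
        simp only [add_zero]; exact Ω.op.mem_nhds hC.zD
      filter_upwards [this] with z hz
      unfold gv
      rw [hu _ hz]
    rw [hd] at h2
    exact h2
  · refine ⟨0, ?_⟩
    intro α U a N r v hFD
    obtain ⟨q, h1, -⟩ := fd_inst hX hC hFD hP
    exact absurd ⟨q, h1⟩ hex

/-- **The ratios tend to one.** -/
theorem t0 (hX : SXj Ω) (n : ℕ) (h5' : T5 Ω.D n (1, -1)) : T0 Ω.D n (1, 0) := by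
  have h5 := t5 hX n
  have hd : T0 Ω.D n (-1, -1) := h5.t0
  have hr : T0 Ω.D n (1, -1) := h5'.t0
  have key : T0 Ω.D n (-1, 0) := by
    intro ρ ζ hC α U a N r v hFD
    obtain ⟨S, S', hP⟩ := H170.exists_pattern (ζ := ρ) (ω := wE) (z := ζ)
      (fun p => (hC.ne p).symm) (fun q => q.elim)
    set β := (1 + W (-1, 0)) / √2 with hβ
    -- both ratios tend to `β`
    have both : ∀ (v : α → Site), FD Ω.D (U : Filter α) a N r v ρ ζ →
        Tendsto (fun x => rat (N x) (r x) (v x) (-1, 0)) U (𝓝 β) ∧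
        Tendsto (fun x => rat (N x) (r x) (v x) (0, -1)) U (𝓝 β) := by
      intro v hFD
      obtain ⟨q, -, -, -, h4⟩ := fd_inst hX hC hFD hP
      have hs : FD Ω.D (U : Filter α) a N r (fun x => v x + (-1, 0)) ρ ζ := hFD.shift (-1, 0)
      have h6 := hr ρ ζ hC α U a N r (fun x => v x + (-1, 0)) hs
      have e1 : ∀ x, rat (N x) (r x) (v x) (0, -1) =
          rat (N x) (r x) (v x) (-1, 0) * rat (N x) (r x) (v x + (-1, 0)) (1, -1) := by
        intro x
        have := rat_mul (N x) (r x) (v x) (-1, 0) (1, -1)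
        have e : ((-1, 0) : Site) + (1, -1) = (0, -1) := by ext <;> simp
        rw [e] at this
        exact this.symm
      -- the first ratio
      have h7 : Tendsto (fun x => rat (N x) (r x) (v x) (-1, 0) *
          (1 + rat (N x) (r x) (v x + (-1, 0)) (1, -1))) U (𝓝 (2 * β)) := by
        refine h4.congr fun x => ?_
        rw [e1 x]; ring
      have h8 := h7.div (h6.const_add 1) (by norm_num)
      have h9 : Tendsto (fun x => rat (N x) (r x) (v x) (-1, 0)) U (𝓝 β) := by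
        refine (h8.congr' ?_).trans (le_of_eq (by congr 1; ring))
        have hev := (h6.const_add 1).eventually_ne (show (1:ℝ) + 1 ≠ 0 by norm_num)
        filter_upwards [hev] with x hx
        simp only [Pi.div_apply]
        rw [mul_div_assoc, div_self hx, mul_one]
      refine ⟨h9, ?_⟩
      have h10 := h9.mul h6
      rw [mul_one] at h10
      exact h10.congr fun x => (e1 x).symm
    have b1 := (both v hFD).1
    have hs : FD Ω.D (U : Filter α) a N r (fun x => v x + (-1, 0)) ρ ζ := hFD.shift (-1, 0)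
    have b2 := (both _ hs).2
    have b3 := hd ρ ζ hC α U a N r v hFD
    have e1 : ∀ x, rat (N x) (r x) (v x) (-1, -1) =
        rat (N x) (r x) (v x) (-1, 0) * rat (N x) (r x) (v x + (-1, 0)) (0, -1) := by
      intro x
      have := rat_mul (N x) (r x) (v x) (-1, 0) (0, -1)
      have e : ((-1, 0) : Site) + (0, -1) = (-1, -1) := by ext <;> simp
      rw [e] at this
      exact this.symm
    have b4 : Tendsto (fun x => rat (N x) (r x) (v x) (-1, -1)) U (𝓝 (β * β)) :=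
      (b1.mul b2).congr fun x => (e1 x).symm
    have hβ2 : β * β = 1 := tendsto_nhds_unique b4 b3
    have hβ0 : 0 ≤ β := ge_of_tendsto b1 (Eventually.of_forall fun x => (rat_pos _ _ _ _).le)
    have hβ1 : β = 1 := by nlinarith
    rwa [hβ1] at b1
  have := key.neg
  have e : -((-1, 0) : Site) = (1, 0) := by ext <;> simp
  rwa [e] at this

end final

end Vale.Agent.P144Q.B

namespace Vale.Agent.P144Q

/-- **Convergence of the ratios of disorder correlations.** -/
theorem B.ratio (hX : ∀ Ω, SXj Ω) : SRat := by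
  intro Ω Ω' hD Λ hL
  have h5' : ∀ n, B.T5 Ω.D n (1, -1) := fun n => by
    have h1 := B.t5 (hX Ω') n
    rw [hD] at h1
    have h2 := h1.refl
    have e : P144.H436.rs (-1, -1) = (1, -1) := by unfold P144.H436.rs; ext <;> simp
    rwa [e] at h2
  exact B.ratioM_of_grad hL (fun n => B.t5 (hX Ω) n) h5' fun n => B.t0 (hX Ω) n (h5' n)

end Vale.Agent.P144Q
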