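import Vale.Agent.P144Q.Defs

/-!
Elementary properties of the approximations and of the `H`-functions.
-/

namespace Vale.Agent.P144Q

open Filter Topology Metric Vale.Agent.P144
open Vale.Agent.P144.H170 (Pt pt nf ev_nf ev_nf_of tendsto_fst_nf tendsto_pt_nf apos_nf a_nf)
open Vale.Agent.P144G (KC kk)

theorem ball_Dia {z : ℂ} (hz : ‖z‖ ≤ 1 / 2) : z ∈ Dia := by
  show |z.re| + |z.im| < 1
  have h1 := Complex.sq_norm z
  rw [Complex.normSq_apply] at h1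
  have h2 : ‖z‖ ^ 2 ≤ 1 / 4 := by nlinarith [norm_nonneg z]
  nlinarith [sq_abs z.re, sq_abs z.im, abs_nonneg z.re, abs_nonneg z.im,
    sq_nonneg (|z.re| - |z.im|), sq_nonneg (|z.re| + |z.im| - 1)]

theorem Dom.norm_lt (Ω : Dom) {z : ℂ} (hz : z ∈ Ω.D) : ‖z‖ < 1 / 4 := by
  simpa using Ω.small hz

theorem Dom.dia (Ω : Dom) {z : ℂ} (hz : z ∈ Ω.D) : z ∈ Dia :=
  ball_Dia (by linarith [Ω.norm_lt hz])

theorem pt_sub_le {a : ℝ} (ha : 0 < a) {x y : Pt} {m : ℕ} (h1 : |y.1 - x.1| ≤ m)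
    (h2 : |y.2 - x.2| ≤ m) : ‖pt a y - pt a x‖ ≤ 2 * (a * m) := by
  refine (Complex.norm_le_abs_re_add_abs_im _).trans ?_
  have e1 : (pt a y - pt a x).re = a * ((y.1 - x.1 : ℤ) : ℝ) := by simp [pt]; ring
  have e2 : (pt a y - pt a x).im = a * ((y.2 - x.2 : ℤ) : ℝ) := by simp [pt]; ring
  have f1 : |((y.1 - x.1 : ℤ) : ℝ)| ≤ m := by exact_mod_cast h1
  have f2 : |((y.2 - x.2 : ℤ) : ℝ)| ≤ m := by exact_mod_cast h2
  rw [e1, e2, abs_mul, abs_mul, abs_of_pos ha]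
  nlinarith

section

variable {D : Set ℂ} {ι : Type} {l : Filter ι} {a : ι → ℝ} {N : ι → Finset Site}

theorem Appr.comp {ι' : Type} {l' : Filter ι'} {f : ι' → ι} (hN : Appr D l a N)
    (hf : Tendsto f l' l) : Appr D l' (fun k => a (f k)) (fun k => N (f k)) where
  inn := fun z hz => by
    obtain ⟨r, hr, h⟩ := (ev_nf (P := fun k x => x ∈ N k)).1 (hN.inn z hz)
    exact (ev_nf (P := fun k x => x ∈ N (f k))).2 ⟨r, hr, hf.eventually h⟩
  sub := fun ε hε => hf.eventually (hN.sub ε hε)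
  kc := hf.eventually hN.kc

theorem Appr.mono {l' : Filter ι} (hN : Appr D l a N) (h : l' ≤ l) : Appr D l' a N :=
  hN.comp (f := fun k => k) h

/-- Near a point of `D` all sites are in `N`. -/
theorem Appr.near (ha : Tendsto a l (𝓝[>] 0)) (hN : Appr D l a N) {z : ℂ} (hz : z ∈ D) (m : ℕ) :
    ∀ᶠ kx in nf l a z, ∀ y : Pt, |y.1 - kx.2.1| ≤ m → |y.2 - kx.2.2| ≤ m → y ∈ N kx.1 := by
  obtain ⟨r, hr, h⟩ := (ev_nf (P := fun k x => x ∈ N k)).1 (hN.inn z hz)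
  refine (ev_nf (P := fun k x => ∀ y : Pt, |y.1 - x.1| ≤ m → |y.2 - x.2| ≤ m → y ∈ N k)).2
    ⟨r / 2, by positivity, ?_⟩
  have ha0 : Tendsto (fun k => 2 * (a k * m)) l (𝓝 (2 * (0 * m))) :=
    ((tendsto_nhds_of_tendsto_nhdsWithin ha).mul_const _).const_mul _
  rw [zero_mul, mul_zero] at ha0
  filter_upwards [h, ha0.eventually_lt_const (by positivity : (0:ℝ) < r / 2),
    ha.eventually self_mem_nhdsWithin] with k h1 h2 h3 x hx y e1 e2
  refine h1 y ?_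
  have := norm_sub_le_norm_sub_add_norm_sub (pt (a k) y) (pt (a k) x) z
  linarith [pt_sub_le h3 e1 e2]

/-- Sites with limits in `D` are deep inside. -/
theorem Appr.deep (ha : Tendsto a l (𝓝[>] 0)) (hN : Appr D l a N) {w : ι → Site} {c : ℂ}
    (hc : c ∈ D) (hw : Tendsto (fun k => pt (a k) (w k)) l (𝓝 c)) (m : ℕ) :
    ∀ᶠ k in l, ∀ y : Pt, |y.1 - (w k).1| ≤ m → |y.2 - (w k).2| ≤ m → y ∈ N k := by
  have h : Tendsto (fun k => (k, w k)) l (nf l a c) :=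
    tendsto_inf.2 ⟨tendsto_id.prodMk tendsto_top, tendsto_comap_iff.2 hw⟩
  exact h.eventually (hN.near ha hc m)

theorem Appr.mem (ha : Tendsto a l (𝓝[>] 0)) (hN : Appr D l a N) {w : ι → Site} {c : ℂ}
    (hc : c ∈ D) (hw : Tendsto (fun k => pt (a k) (w k)) l (𝓝 c)) : ∀ᶠ k in l, w k ∈ N k :=
  (hN.deep ha hc hw 0).mono fun k h => h _ (by simp) (by simp)

/-- The lattice points of a compact subset of `D` are in `N`. -/
theorem Appr.cpt (hN : Appr D l a N) {K : Set ℂ} (hK : IsCompact K) (hKD : K ⊆ D) :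
    ∀ᶠ k in l, ∀ x, pt (a k) x ∈ K → x ∈ N k := by
  have h : ∀ z ∈ K, ∃ U ∈ 𝓝[K] z, ∀ᶠ k in l, ∀ x, pt (a k) x ∈ U → x ∈ N k := by
    intro z hz
    obtain ⟨r, hr, h⟩ := (ev_nf (P := fun k x => x ∈ N k)).1 (hN.inn z (hKD hz))
    exact ⟨closedBall z r, mem_nhdsWithin_of_mem_nhds (closedBall_mem_nhds z hr),
      h.mono fun k hk x hx => hk x (by rwa [mem_closedBall, dist_eq_norm] at hx)⟩
  refine hK.induction_on (p := fun U => ∀ᶠ k in l, ∀ x, pt (a k) x ∈ U → x ∈ N k) (by simp)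
    (fun s t hst ht => ht.mono fun k hk x hx => hk x (hst hx)) (fun s t hs ht => ?_) h
  filter_upwards [hs, ht] with k h1 h2 x hx
  exact hx.elim (h1 x) (h2 x)

/-- The sets lie deep inside the diamond of the mesh. -/
theorem Appr.big (ha : Tendsto a l (𝓝[>] 0)) (hN : Appr D l a N) (hD : D ⊆ ball 0 (1 / 4))
    (m : ℕ) : ∀ᶠ k in l, ∀ x ∈ N k, |x.1| + |x.2| + m ≤ (H436.nn (a k) : ℤ) := by
  have ha0 : Tendsto (fun k => a k * (m + 1)) l (𝓝 (0 * (m + 1))) :=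
    (tendsto_nhds_of_tendsto_nhdsWithin ha).mul_const _
  rw [zero_mul] at ha0
  filter_upwards [hN.sub (1 / 12) (by norm_num), ha0.eventually_lt_const (by norm_num : (0:ℝ) < 1 / 3),
    ha.eventually self_mem_nhdsWithin] with k h1 h2 h3 x hx
  have h3 : 0 < a k := h3
  obtain ⟨z, hz, h4⟩ := h1 x hx
  have h5 : ‖z‖ < 1 / 4 := by simpa using hD hz
  have h6 : ‖pt (a k) x‖ ≤ 1 / 3 := by
    have := norm_add_le (pt (a k) x - z) z
    rw [sub_add_cancel] at this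
    linarith
  have h7 := (Complex.abs_re_le_norm (pt (a k) x)).trans h6
  have h8 := (Complex.abs_im_le_norm (pt (a k) x)).trans h6
  simp only [pt, abs_mul, abs_of_pos h3] at h7 h8
  have h9 : |(x.1 : ℝ)| + |(x.2 : ℝ)| + (m + 1) < 1 / a k := by
    rw [lt_div_iff₀ h3]; nlinarith
  have h10 := h9.trans_le (Nat.le_ceil _)
  have h11 : |x.1| + |x.2| + (m + 1) < (⌈1 / a k⌉₊ : ℤ) := by exact_mod_cast h10
  have := abs_nonneg x.1
  have := abs_nonneg x.2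
  unfold H436.nn
  lia

end

section

variable {Λ : Finset Site} {τ θ A B C E Hs Hf : Site → ℝ}

theorem HB.of_spr (h : AL.Spr Λ τ θ A B C E) (hH : AL.IsH Λ A B C E Hs Hf) : HB Λ Hs Hf where
  out := hH.out
  nn := by
    rintro ⟨i, j⟩ ⟨x, y⟩ hx e
    refine h.Hs_bdry hH ?_
    simp only at e
    have : (x = i + 1 ∧ y = j) ∨ (x = i - 1 ∧ y = j) ∨ (x = i ∧ y = j + 1) ∨
        (x = i ∧ y = j - 1) := by
      rcases abs_cases (x - i) with h1 | h1 <;> rcases abs_cases (y - j) with h2 | h2 <;> lia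
    rcases this with ⟨rfl, rfl⟩ | ⟨rfl, rfl⟩ | ⟨rfl, rfl⟩ | ⟨rfl, rfl⟩ <;> simp [hx]
  zero := fun _ _ hv hΛ => h.Hf_zero hH hv hΛ
  le := h.Hf_le hH

theorem Reg.of_spr (h : AL.Spr Λ τ θ A B C E) (hH : AL.IsH Λ A B C E Hs Hf) {x : Site}
    (hθ : θ (x.1 - 1, x.2) = θ (x.1 - 1, x.2 - 1)) (hτ : τ (x.1, x.2) = τ (x.1, x.2 - 1)) :
    Reg Λ Hs Hf x := by
  obtain ⟨i, j⟩ := x
  exact ⟨fun hx => P144G.lap_low h hH hx hθ, fun hin => h.lapf_nonpos hH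
    (hin (i, j) (by simp [AL.mem_cnr])) (hin (i + 1, j) (by simp [AL.mem_cnr]))
    (hin (i, j + 1) (by simp [AL.mem_cnr])) (hin (i + 1, j + 1) (by simp [AL.mem_cnr])) hτ⟩

theorem HB.div (h : HB Λ Hs Hf) {L : ℝ} (hL : 0 < L) :
    HB Λ (fun x => Hs x / L) (fun x => Hf x / L) where
  out := fun v hv => by rw [h.out v hv, zero_div]
  nn := fun v x hx e => div_nonneg (h.nn v x hx e) hL.le
  zero := fun f v h1 h2 => by rw [h.zero f v h1 h2, zero_div]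
  le := fun f v h1 => div_le_div_of_nonneg_right (h.le f v h1) hL.le

theorem lap_div (u : Site → ℝ) (L : ℝ) (x : Site) :
    AL.lap (fun y => u y / L) x = AL.lap u x / L := by
  unfold AL.lap; ring

theorem Reg.div {x : Site} (h : Reg Λ Hs Hf x) {L : ℝ} (hL : 0 < L) :
    Reg Λ (fun x => Hs x / L) (fun x => Hf x / L) x := by
  refine ⟨fun hx => ?_, fun hx => ?_⟩
  · have := div_nonneg (h.1 hx) hL.le
    rw [lap_div]
    refine this.trans_eq (by ring)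
  · rw [lap_div]
    exact div_nonpos_of_nonpos_of_nonneg (h.2 hx) hL.le

/-- The extension of `Hs` to the outside. -/
noncomputable def hat (Λ : Finset Site) (Hs : Site → ℝ) (x : Site) : ℝ :=
  if x ∈ Λ then Hs x else AL.lap Hs x / 5

theorem hat_in {x : Site} (hx : x ∈ Λ) : hat Λ Hs x = Hs x := if_pos hx

theorem HB.nbr (h : HB Λ Hs Hf) {x : Site} (hx : x ∉ Λ) :
    0 ≤ Hs (x.1 + 1, x.2) ∧ 0 ≤ Hs (x.1 - 1, x.2) ∧ 0 ≤ Hs (x.1, x.2 + 1) ∧
      0 ≤ Hs (x.1, x.2 - 1) :=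
  ⟨h.nn _ x hx (by simp), h.nn _ x hx (by simp), h.nn _ x hx (by simp), h.nn _ x hx (by simp)⟩

theorem HB.hat_out (h : HB Λ Hs Hf) {x : Site} (hx : x ∉ Λ) : hat Λ Hs x =
    (Hs (x.1 + 1, x.2) + Hs (x.1 - 1, x.2) + Hs (x.1, x.2 + 1) + Hs (x.1, x.2 - 1)) / 5 := by
  unfold hat AL.lap
  rw [if_neg hx, h.out x hx]; ring

theorem HB.hat_nn (h : HB Λ Hs Hf) {x : Site} (hx : x ∉ Λ) : 0 ≤ hat Λ Hs x := by
  obtain ⟨h1, h2, h3, h4⟩ := h.nbr hx
  rw [h.hat_out hx]; positivity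

theorem HB.le_hat (h : HB Λ Hs Hf) (x : Site) : Hs x ≤ hat Λ Hs x := by
  by_cases hx : x ∈ Λ
  · rw [hat_in hx]
  · rw [h.out x hx]; exact h.hat_nn hx

/-- The Laplacian of the extension at an outer site. -/
theorem HB.lap_hat_out (h : HB Λ Hs Hf) {x : Site} (hx : x ∉ Λ) :
    hat Λ Hs x ≤ AL.lap (hat Λ Hs) x := by
  have e := h.hat_out hx
  have h1 := h.le_hat (x.1 + 1, x.2)
  have h2 := h.le_hat (x.1 - 1, x.2)
  have h3 := h.le_hat (x.1, x.2 + 1)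
  have h4 := h.le_hat (x.1, x.2 - 1)
  unfold AL.lap
  linarith

/-- The Laplacian of the extension at an inner site. -/
theorem HB.lap_hat_in (h : HB Λ Hs Hf) {x : Site} (hx : x ∈ Λ) :
    AL.lap Hs x + 1 / 5 * (kk Λ x * Hs x) ≤ AL.lap (hat Λ Hs) x := by
  have k : ∀ y : Site, (Hs x ≤ Hs (y.1 + 1, y.2) ∨ Hs x ≤ Hs (y.1 - 1, y.2) ∨
      Hs x ≤ Hs (y.1, y.2 + 1) ∨ Hs x ≤ Hs (y.1, y.2 - 1)) →
      Hs y + 1 / 5 * (P144G.oi Λ y * Hs x) ≤ hat Λ Hs y := by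
    intro y hy
    by_cases h' : y ∈ Λ
    · rw [P144G.oi_in h', hat_in h']; simp
    · obtain ⟨h1, h2, h3, h4⟩ := h.nbr h'
      rw [P144G.oi_out h', h.hat_out h', h.out y h']
      rcases hy with e | e | e | e <;> linarith
  obtain ⟨i, j⟩ := x
  have k1 := k (i + 1, j) (Or.inr (Or.inl (by simp)))
  have k2 := k (i - 1, j) (Or.inl (by simp))
  have k3 := k (i, j + 1) (Or.inr (Or.inr (Or.inr (by simp))))
  have k4 := k (i, j - 1) (Or.inr (Or.inr (Or.inl (by simp))))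
  have e := hat_in (Hs := Hs) hx
  unfold AL.lap kk
  simp only at *
  linarith

/-- The extension is subharmonic at regular sites. -/
theorem HB.lap_hat (h : HB Λ Hs Hf) {x : Site} (hr : Reg Λ Hs Hf x) :
    0 ≤ AL.lap (hat Λ Hs) x := by
  by_cases hx : x ∈ Λ
  · exact (hr.1 hx).trans (h.lap_hat_in hx)
  · exact (h.hat_nn hx).trans (h.lap_hat_out hx)

/-- The negative part of `Hf` is subharmonic at regular faces. -/
theorem HB.lap_neg (h : HB Λ Hs Hf) {x : Site} (hr : Reg Λ Hs Hf x) :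
    0 ≤ AL.lap (fun y => max (-Hf y) 0) x := by
  have a1 := fun y => le_max_left (-Hf y) 0
  have a2 := fun y => le_max_right (-Hf y) 0
  unfold AL.lap
  rcases le_total (-Hf x) 0 with h0 | h0
  · simp only [max_eq_right h0]
    linarith [a2 (x.1 + 1, x.2), a2 (x.1 - 1, x.2), a2 (x.1, x.2 + 1), a2 (x.1, x.2 - 1)]
  · by_cases hin : ∀ u ∈ AL.cnr x, u ∈ Λ
    · have := hr.2 hin
      unfold AL.lap at this
      simp only [max_eq_left h0]
      linarith [a1 (x.1 + 1, x.2), a1 (x.1 - 1, x.2), a1 (x.1, x.2 + 1), a1 (x.1, x.2 - 1)]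
    · push Not at hin
      obtain ⟨u, hu, hΛ⟩ := hin
      simp only [h.zero x u hu hΛ, neg_zero, max_self]
      linarith [a2 (x.1 + 1, x.2), a2 (x.1 - 1, x.2), a2 (x.1, x.2 + 1), a2 (x.1, x.2 - 1)]

end

end Vale.Agent.P144Q
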