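import Vale.Agent.P144Q.Glue
import Vale.Agent.P144.H170.K12

/-!
The limits of the kernels with a source in a general domain.
-/

namespace Vale.Agent.P144Q.G

open Filter Topology Complex Metric Vale.Agent.P144 Vale.Agent.P144.H170

variable {Ω : Dom} {Λ : ℝ → Finset Site}

/-- Limits along ultrafilters that depend on the solution up to its sign only. -/
theorem lim_of_sol {G : Filter ℝ} [NeBot G] {κ : Type} [Fintype κ] {ζ : κ → ℂ} {ω : ℂ}
    (hζ : ∀ p, ζ p ∈ Ω.D) (hω : ω ∈ Ω.D) (hinj : Function.Injective ζ) (hne : ∀ p, ζ p ≠ ω)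
    {F : ℝ → ℂ} {Φ : (ℂ → ℂ) → ℂ}
    (hΦ : ∀ q q' : ℂ → ℂ, ((∀ z ∈ Ω.D, q z = q' z) ∨ ∀ z ∈ Ω.D, q z = -q' z) → Φ q = Φ q')
    (h : ∀ l : Ultrafilter ℝ, (l : Filter ℝ) ≤ G → ∃ q, Sol Ω ζ ω q ∧ Tendsto F l (𝓝 (Φ q))) :
    ∃ c, Tendsto F G (𝓝 c) := by
  obtain ⟨q0, hq0, -⟩ := h (Ultrafilter.of G) (Ultrafilter.of_le G)
  refine ⟨Φ q0, ?_⟩
  rw [tendsto_iff_ultrafilter]
  intro l hl
  obtain ⟨q, hq, hF⟩ := h l hl
  rw [← hΦ q q0 (sol_unique hζ hω hinj hne hq hq0)]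
  exact hF

section src

variable (p : Pts) (j : Fin p.n)

theorem Kn_src (a : ℝ) (x : AL.Lb p.n p.m) : Kn Λ p a x (.src j) =
    AL.ep (AL.cnp p a x) (fl a (p.x j), fl a (p.x j)) *
      (AL.QQ (Λ a) ((AL.cnp p a x).2 ::ₘ rM fun i : {i // i ≠ j} => rJ p j i a)
        ((AL.cnp p a x).1 ::ₘ {fl a (p.x j)}) /
        AL.zj (Λ a) (rM fun i : {i // i ≠ j} => rJ p j i a) (fl a (p.x j))) := by
  unfold Kn
  rw [Rp_cons p j a]
  exact Wf_src _

/-- The limit of the spinor with the source `j`. -/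
abbrev PkJ (Ω : Dom) (Λ : ℝ → Finset Site) (p : Pts) (j : Fin p.n) (l : Filter ℝ) (q : ℂ → ℂ) :
    Prop :=
  Pack Ω l (fun a => a) Λ (rJ p j) (fun a => fl a (p.x j))
    (fun i : {i // i ≠ j} => p.x i) (p.x j) q

variable {p}

theorem g_ne {i : Fin p.n} {j : Fin p.n} (hp : Good0 Ω.D p) (h : i ≠ j) : p.x i ≠ p.x j :=
  fun h' => h (Sum.inl_injective (hp.2.2 (by simpa using h')))

theorem g_ney (hp : Good0 Ω.D p) (k : Fin p.m) (j : Fin p.n) : p.y k ≠ p.x j := fun h' => by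
  have := @hp.2.2 (Sum.inr k) (Sum.inl j) (by simpa using h')
  cases this

theorem pkj_exists (hX : SXj Ω) (hL : Fam0 Ω.D Λ) (hp : Good0 Ω.D p) (l : Ultrafilter ℝ) (hl : (l : Filter ℝ) ≤ 𝓝[>] 0) :
    ∃ q, PkJ Ω Λ p j l q := by
  refine pack_exists (a := fun a : ℝ => a) ?_ ?_ ?_ ?_ hX ?_ ?_ ?_ ?_
  · exact AL.idt.mono_left hl
  · exact hL.mono hl
  · exact fun i => (AL.flt _).mono_left hl
  · exact (AL.flt _).mono_left hl
  · exact fun i => hp.1 i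
  · exact hp.1 j
  · intro i i' h
    exact Subtype.ext (by
      by_contra hc
      exact g_ne hp hc h)
  · exact fun i => g_ne hp i.2

variable {l : Ultrafilter ℝ} (hl : (l : Filter ℝ) ≤ 𝓝[>] 0) {q : ℂ → ℂ}

include hl

variable {j}

theorem rho_j_lim (hP : PkJ Ω Λ p j l q) :
    Tendsto (fun a : ℝ => AL.rho p a (.src j) / (√a : ℂ)) l
      (𝓝 (rtu AL.z0 * ((√(2 * Real.pi) / 2 : ℝ) * (H365.c0 * q (p.x j))))) := by
  refine (hP.src.const_mul (rtu AL.z0)).congr' ?_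
  filter_upwards [ev_pos hl] with a ha
  have hs : (√a : ℂ) ≠ 0 := by exact_mod_cast (Real.sqrt_pos.2 ha).ne'
  rw [rho_src_eq ha, mul_div_cancel_left₀ _ hs]
  rfl

theorem rho_i_lim (hL : Fam0 Ω.D Λ) (hp : Good0 Ω.D p) {i : Fin p.n} (hij : i ≠ j) (hP : PkJ Ω Λ p j l q) :
    Tendsto (fun a : ℝ => AL.rho p a (.src i) * (Kn Λ p a (.src i) (.src j) : ℂ) / (√a : ℂ)) l
      (𝓝 (rtu AL.z0 * (-1 * ((√(2 * Real.pi) / 2 : ℝ) * (H365.c0 * (I * q (p.x i))))))) := by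
  have hne := g_ne hp hij
  have fi : Tendsto (fun a : ℝ => pt a (fl a (p.x i))) l (𝓝 (p.x i)) := (AL.flt _).mono_left hl
  have fj : Tendsto (fun a : ℝ => pt a (fl a (p.x j))) l (𝓝 (p.x j)) := (AL.flt _).mono_left hl
  have t1 := AL.turn (a := fun a : ℝ => a) (x := fun a => fl a (p.x i)) (s := 1 / 4)
    (AL.idt.mono_left hl) fi fj (fun _ => Or.inl ⟨rfl, rfl⟩) (1 / 4) hne
  have t2 := (t1.mul (hP.disA ⟨i, hij⟩)).const_mul (rtu AL.z0)
  have t3 := (AL.pos_lim (a := fun a : ℝ => a) (AL.idt.mono_left hl) fi (1 / 4) (1 / 4)).sub fj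
  have hd := Appr.mem (a := fun a : ℝ => a) (AL.idt.mono_left hl) (hL.mono hl) (hp.1 i) fi
  refine t2.congr' ?_
  filter_upwards [ev_pos hl, t3.eventually_ne (sub_ne_zero.2 hne), hd] with a ha h1 h2
  have hs : (√a : ℂ) ≠ 0 := by exact_mod_cast (Real.sqrt_pos.2 ha).ne'
  have h3 : fl a (p.x i) ∈ Λ a := h2
  have e1 : ∏ m : {m // m ≠ i},
      rtu (pos a (fl a (p.x i)) (1 / 4) (1 / 4) - cF a (fl a (p.x m))) =
      rtu (pos a (fl a (p.x i)) (1 / 4) (1 / 4) - cF a (fl a (p.x j))) *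
      ∏ m : {m : {m // m ≠ j} // m ≠ ⟨i, hij⟩},
      rtu (pos a (fl a (p.x i)) (1 / 4) (1 / 4) - cF a (fl a (p.x m))) := by
    have e2 := Fintype.prod_eq_mul_prod_subtype_ne
      (fun m => rtu (pos a (fl a (p.x i)) (1 / 4) (1 / 4) - cF a (fl a (p.x m)))) i
    have e3 := Fintype.prod_eq_mul_prod_subtype_ne
      (fun m => rtu (pos a (fl a (p.x i)) (1 / 4) (1 / 4) - cF a (fl a (p.x m)))) j
    have e4 := Fintype.prod_eq_mul_prod_subtype_ne
      (fun m : {m // m ≠ j} => rtu (pos a (fl a (p.x i)) (1 / 4) (1 / 4) - cF a (fl a (p.x m))))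
      ⟨i, hij⟩
    have h0 : rtu (pos a (fl a (p.x i)) (1 / 4) (1 / 4) - cF a (fl a (p.x i))) ≠ 0 := by
      rw [AL.self_eq ha]
      exact mul_ne_zero hs (rtu_ne AL.z0_ne)
    refine mul_left_cancel₀ h0 ?_
    rw [← e2, e3, e4]
    ring
  have e5 : Kn Λ p a (.src i) (.src j) = AL.ep (fl a (p.x i), fl a (p.x i))
      (fl a (p.x j), fl a (p.x j)) * jA (Λ a) (fun i : {i // i ≠ j} => rJ p j i a)
      (fl a (p.x j)) (fl a (p.x i)) := by
    rw [Kn_src]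
    unfold jA AL.xA
    rw [if_pos h3]
    rfl
  have h4 := rtd_ne h1
  rw [rho_src_eq ha, e1, e5]
  push_cast
  have e6 : ∀ x y z w u t: ℂ, w ≠ 0 → x * (y * z / w * (u * w * t)) = x * (z * u) * (y * t) := by
    intro x y z w u t hw
    field_simp
  refine (e6 _ _ _ _ _ _ h4).trans ?_
  rw [mul_assoc (√a : ℂ), mul_div_cancel_left₀ _ hs]
  rfl

omit hl in
/-- Two sources. -/
theorem k1 (hX : SXj Ω) (hL : Fam0 Ω.D Λ) (hp : Good0 Ω.D p) (i j : Fin p.n) (hij : i ≠ j) : ∃ c : ℂ, Tendsto (fun a : ℝ =>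
    AL.rho p a (.src i) * AL.rho p a (.src j) * (Kn Λ p a (.src i) (.src j) : ℂ) / a)
    (𝓝[>] 0) (𝓝 c) := by
  refine lim_of_sol (κ := {i // i ≠ j}) (ζ := fun i => p.x i) (ω := p.x j)
    (Φ := fun q => rtu AL.z0 * (-1 * ((√(2 * Real.pi) / 2 : ℝ) * (H365.c0 * (I * q (p.x i))))) *
      (rtu AL.z0 * ((√(2 * Real.pi) / 2 : ℝ) * (H365.c0 * q (p.x j)))))
    (fun i => hp.1 i) (hp.1 j) (fun i i' h => Subtype.ext (by
      by_contra hc
      exact g_ne hp hc h)) (fun i => g_ne hp i.2) ?_ ?_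
  · rintro q q' (h | h)
    · rw [h _ (hp.1 i), h _ (hp.1 j)]
    · rw [h _ (hp.1 i), h _ (hp.1 j)]; ring
  · intro l hl
    obtain ⟨q, hq⟩ := pkj_exists j hX hL hp l hl
    refine ⟨q, hq.sol, ?_⟩
    refine ((rho_i_lim hl hL hp hij hq).mul (rho_j_lim hl hq)).congr' ?_
    filter_upwards [ev_pos hl] with a ha
    rw [← AL.sqrt_mul_C ha]
    have hs : (√a : ℂ) ≠ 0 := by exact_mod_cast (Real.sqrt_pos.2 ha).ne'
    field_simp

/-! ### An energy and a source -/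

theorem comp_lim (hp : Good0 Ω.D p) (k : Fin p.m) {φ : ℂ →L[ℝ] ℝ} {s t : ℝ}
    (hs : s = 1 / 4 ∨ s = 3 / 4) {X : ℝ → Pt → ℝ}
    (hX : XLim (l : Filter ℝ) (fun a => a) (Ω.D \ Mk (fun i : {i // i ≠ j} => p.x i)
      fun _ : Unit => p.x j) (rJ p j) (fun _ : Unit => fun a => fl a (p.x j)) φ s t X q)
    {S : {i // i ≠ j} → Prop} {S' : Unit → Prop}
    (hS : p.y k ∈ VS S S' (fun i : {i // i ≠ j} => p.x i) fun _ : Unit => p.x j)
    {c : ℝ → Site} (hc : ∀ a, AL.Typ (c a) (fl a (p.y k)) s) :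
    Tendsto (fun a : ℝ => (∏ i, rtu (pos a (fl a (p.y k)) s t - cF a (fl a (p.x i)))) *
      ((AL.ep (c a, fl a (p.y k)) (fl a (p.x j), fl a (p.x j)) * X a (fl a (p.y k)) : ℝ) : ℂ)) l
      (𝓝 (-1 * (RS S S' (fun i : {i // i ≠ j} => p.x i) (fun _ : Unit => p.x j) (p.y k) *
        (φ (q (p.y k) / RS S S' (fun i : {i // i ≠ j} => p.x i) (fun _ : Unit => p.x j)
          (p.y k)) : ℂ)))) := by
  have hne := g_ney hp k j
  have ha : Tendsto (fun a : ℝ => a) (l : Filter ℝ) (𝓝[>] 0) := AL.idt.mono_left hl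
  have fk : Tendsto (fun a : ℝ => pt a (fl a (p.y k))) l (𝓝 (p.y k)) := (AL.flt _).mono_left hl
  have fj : Tendsto (fun a : ℝ => pt a (fl a (p.x j))) l (𝓝 (p.x j)) := (AL.flt _).mono_left hl
  have fr : ∀ i : {i // i ≠ j}, Tendsto (fun a : ℝ => pt a (rJ p j i a)) l (𝓝 (p.x i)) :=
    fun i => (AL.flt _).mono_left hl
  have t1 := AL.turn (a := fun a : ℝ => a) (x := c) (s := s) ha fk fj hc t hne
  have hk : p.y k ∈ Ω.D \ Mk (fun i : {i // i ≠ j} => p.x i) fun _ : Unit => p.x j := by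
    refine ⟨hp.2.1 k, ?_⟩
    rintro (⟨i, hi⟩ | ⟨i, hi⟩)
    · exact g_ney hp k i hi.symm
    · exact hne hi.symm
  have t2 := (hX _ hk).comp (tendsto_self (a := fun a : ℝ => a) fk)
  have t3 := (RS_lim (a := fun a : ℝ => a) ha fr (fun _ : Unit => fj) hS s t).comp
    (tendsto_self (a := fun a : ℝ => a) fk)
  -- the product of the roots is bounded
  set RRa : ℝ → ℂ := fun a => RR a (fun i : {i // i ≠ j} => rJ p j i a)
    (fun _ : Unit => fl a (p.x j)) (pos a (fl a (p.y k)) s t) with hRR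
  set RSa : ℝ → ℂ := fun a => RS S S' (fun i : {i // i ≠ j} => cF a (rJ p j i a))
    (fun _ : Unit => pt a (fl a (p.x j))) (pos a (fl a (p.y k)) s t) with hRS
  set RSl := RS S S' (fun i : {i // i ≠ j} => p.x i) (fun _ : Unit => p.x j) (p.y k) with hRSl
  have hRSne : RSl ≠ 0 := RS_ne hS
  have e0 : ∀ᶠ a in (l : Filter ℝ), ∃ g : ℝ, g * g = 1 ∧ RRa a = (g : ℂ) * RSa a := by
    filter_upwards [ev_pos hl] with a ha
    exact ⟨_, gs_sq S S' (fun i : {i // i ≠ j} => rJ p j i a) (fun _ : Unit => fl a (p.x j))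
      (((fl a (p.y k)).1 : ℝ) + s), RR_eq S S' ha _ _ (fl a (p.y k)) hs t⟩
  have t4 : Tendsto (fun a : ℝ => RRa a * ((X a (fl a (p.y k)) -
      φ (q (p.y k) / RRa a) : ℝ) : ℂ)) l (𝓝 0) := by
    rw [tendsto_zero_iff_norm_tendsto_zero]
    have h1 := t3.norm.mul t2.norm
    rw [norm_zero, mul_zero] at h1
    refine h1.congr' ?_
    filter_upwards [e0] with a ⟨g, hg, h2⟩
    have hgn : ‖(g : ℂ)‖ = 1 := by
      rw [norm_real]
      rcases mul_self_eq_one_iff.1 hg with h | h <;> rw [h] <;> simp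
    rw [norm_mul, h2, norm_mul, hgn, one_mul, ← h2, norm_real]
    rfl
  have t5 : Tendsto (fun a : ℝ => RRa a * ((φ (q (p.y k) / RRa a) : ℝ) : ℂ)) l
      (𝓝 (RSl * (φ (q (p.y k) / RSl) : ℂ))) := by
    have h1 := t3.mul ((continuous_ofReal.tendsto _).comp ((φ.continuous.tendsto _).comp
      ((tendsto_const_nhds (x := q (p.y k))).div t3 hRSne)))
    refine h1.congr' ?_
    filter_upwards [e0] with a ⟨g, hg, h2⟩
    have hgC : (g : ℂ) * (g : ℂ) = 1 := by exact_mod_cast hg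
    have hg0 : (g : ℂ) ≠ 0 := fun h => by rw [h] at hgC; simp at hgC
    have hinv : (g : ℂ)⁻¹ = g := inv_eq_of_mul_eq_one_left hgC
    have h3 : φ (q (p.y k) / RRa a) = g * φ (q (p.y k) / RSa a) := by
      have h3' : g * φ (q (p.y k) / RSa a) = φ (g • (q (p.y k) / RSa a)) := by
        rw [map_smul, smul_eq_mul]
      rw [h3', h2, real_smul]
      congr 1
      rw [div_mul_eq_div_div_swap, div_eq_mul_inv _ (g : ℂ), hinv]; ring
    rw [h3, h2]
    push_cast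
    show RSa a * ((φ (q (p.y k) / RSa a) : ℝ) : ℂ) = _
    linear_combination (-(RSa a * ((φ (q (p.y k) / RSa a) : ℝ) : ℂ))) * hgC
  have t6 := t4.add t5
  rw [zero_add] at t6
  have t7 := t1.mul t6
  have t8 := (AL.pos_lim (a := fun a : ℝ => a) ha fk s t).sub fj
  refine t7.congr' ?_
  filter_upwards [t8.eventually_ne (sub_ne_zero.2 hne)] with a h1
  have h4 := rtd_ne h1
  have e1 : RRa a = (∏ i : {i // i ≠ j}, rtu (pos a (fl a (p.y k)) s t - cF a (fl a (p.x i)))) *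
      rtd (pos a (fl a (p.y k)) s t - pt a (fl a (p.x j))) := by
    rw [hRR]
    simp only
    unfold RR
    rw [unit_prod']
    rfl
  rw [Fintype.prod_eq_mul_prod_subtype_ne _ j, ← mul_add]
  have e2 : ((X a (fl a (p.y k)) - φ (q (p.y k) / RRa a) : ℝ) : ℂ) +
      ((φ (q (p.y k) / RRa a) : ℝ) : ℂ) = (X a (fl a (p.y k)) : ℂ) := by push_cast; ring
  rw [e2, e1]
  push_cast
  have e3 : ∀ x y z w u : ℂ, w ≠ 0 → x * y / w * (z * w * u) = y * z * (x * u) := by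
    intro x y z w u hw
    field_simp
  exact e3 _ _ _ _ _ h4

theorem kern_lim (hp : Good0 Ω.D p) (k : Fin p.m) {x : AL.Lb p.n p.m} {φ : ℂ →L[ℝ] ℝ} {s t : ℝ}
    (hs : s = 1 / 4 ∨ s = 3 / 4) {J : ℝ → Pt → ℝ}
    (hX : XLim (l : Filter ℝ) (fun a => a) (Ω.D \ Mk (fun i : {i // i ≠ j} => p.x i)
      fun _ : Unit => p.x j) (rJ p j) (fun _ : Unit => fun a => fl a (p.x j)) φ s t
      (fun a x => (√a)⁻¹ * J a x) q)
    (hP : PkJ Ω Λ p j l q)
    {S : {i // i ≠ j} → Prop} {S' : Unit → Prop}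
    (hS : p.y k ∈ VS S S' (fun i : {i // i ≠ j} => p.x i) fun _ : Unit => p.x j)
    (hc : ∀ a, AL.Typ (AL.cnp p a x).1 (fl a (p.y k)) s)
    (hf : ∀ a, (AL.cnp p a x).2 = fl a (p.y k)) (hw : ∀ a, AL.wpos p a x = pos a (fl a (p.y k)) s t)
    (hK : ∀ᶠ a in (l : Filter ℝ), Kn Λ p a x (.src j) = AL.ep (AL.cnp p a x)
      (fl a (p.x j), fl a (p.x j)) * J a (fl a (p.y k))) :
    Tendsto (fun a : ℝ => AL.rho p a x * AL.rho p a (.src j) * (Kn Λ p a x (.src j) : ℂ) / a) l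
      (𝓝 (-1 * (RS S S' (fun i : {i // i ≠ j} => p.x i) (fun _ : Unit => p.x j) (p.y k) *
        (φ (q (p.y k) / RS S S' (fun i : {i // i ≠ j} => p.x i) (fun _ : Unit => p.x j)
          (p.y k)) : ℂ)) * (rtu AL.z0 * ((√(2 * Real.pi) / 2 : ℝ) * (H365.c0 * q (p.x j)))))) := by
  have t1 := (comp_lim hl hp k hs hX hS hc).mul (rho_j_lim hl hP)
  refine t1.congr' ?_
  filter_upwards [ev_pos hl, hK] with a ha h1
  have hs : (√a : ℂ) ≠ 0 := by exact_mod_cast (Real.sqrt_pos.2 ha).ne'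
  have e1 : AL.rho p a x = ∏ i, rtu (pos a (fl a (p.y k)) s t - cF a (fl a (p.x i))) := by
    unfold AL.rho
    rw [hw]
  have e2 : ((AL.cnp p a x).1, fl a (p.y k)) = AL.cnp p a x := by
    rw [← hf a]
  rw [h1, e1, e2, ← AL.sqrt_mul_C ha]
  push_cast
  field_simp

omit hl in
theorem sol_phi (hp : Good0 Ω.D p) (k : Fin p.m) (φ : ℂ →L[ℝ] ℝ) (R z : ℂ) {q q' : ℂ → ℂ}
    (h : (∀ z ∈ Ω.D, q z = q' z) ∨ ∀ z ∈ Ω.D, q z = -q' z) :
    -1 * (R * (φ (q (p.y k) / R) : ℂ)) * (z * ((√(2 * Real.pi) / 2 : ℝ) *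
      (H365.c0 * q (p.x j)))) =
    -1 * (R * (φ (q' (p.y k) / R) : ℂ)) * (z * ((√(2 * Real.pi) / 2 : ℝ) *
      (H365.c0 * q' (p.x j)))) := by
  rcases h with h | h
  · rw [h _ (hp.1 j), h _ (hp.2.1 k)]
  · rw [h _ (hp.1 j), h _ (hp.2.1 k), neg_div, map_neg]
    push_cast
    ring

omit hl in
/-- An energy and a source. -/
theorem k2 (hX : SXj Ω) (hL : Fam0 Ω.D Λ) (hp : Good0 Ω.D p) (k : Fin p.m) (j : Fin p.n) :
    (∃ c : ℂ, Tendsto (fun a : ℝ =>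
      AL.rho p a (.lo k) * AL.rho p a (.src j) * (Kn Λ p a (.lo k) (.src j) : ℂ) / a)
      (𝓝[>] 0) (𝓝 c)) ∧
    (∃ c : ℂ, Tendsto (fun a : ℝ =>
      AL.rho p a (.hi k) * AL.rho p a (.src j) * (Kn Λ p a (.hi k) (.src j) : ℂ) / a)
      (𝓝[>] 0) (𝓝 c)) := by
  obtain ⟨S, S', hS⟩ := exists_pattern (ζ := fun i : {i // i ≠ j} => p.x i)
    (ω := fun _ : Unit => p.x j) (z := p.y k) (fun i => g_ney hp k i)
    (fun _ => g_ney hp k j)
  have hdia : ∀ᶠ a in 𝓝[>] (0:ℝ), ∀ y : Pt, |y.1 - (fl a (p.y k)).1| ≤ (1:ℕ) →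
      |y.2 - (fl a (p.y k)).2| ≤ (1:ℕ) → y ∈ Λ a :=
    Appr.deep AL.idt hL (hp.2.1 k) (AL.flt _) 1
  have hinj : Function.Injective (fun i : {i // i ≠ j} => p.x i) := fun i i' h => Subtype.ext (by
      by_contra hc
      exact g_ne hp hc h)
  constructor
  · refine lim_of_sol (κ := {i // i ≠ j}) (ζ := fun i => p.x i) (ω := p.x j)
      (fun i => hp.1 i) (hp.1 j) hinj (fun i => g_ne hp i.2)
      (fun q q' h => sol_phi (j := j) hp k phA (RS S S' (fun i : {i // i ≠ j} => p.x i)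
        (fun _ : Unit => p.x j) (p.y k)) (rtu AL.z0) h) ?_
    intro l hl
    obtain ⟨q, hq⟩ := pkj_exists j hX hL hp l hl
    refine ⟨q, hq.sol, ?_⟩
    refine kern_lim hl hp k (Or.inl rfl) hq.slim.A hq hS (fun a => Or.inl ⟨rfl, rfl⟩)
      (fun a => rfl) (fun a => rfl) ?_
    filter_upwards [hl hdia] with a ha
    rw [Kn_src]
    unfold jA AL.xA
    have : fl a (p.y k) ∈ Λ a := ha _ (by simp) (by simp)
    rw [if_pos this]
    rfl
  · by_cases hj : p.j k = 0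
    · refine lim_of_sol (κ := {i // i ≠ j}) (ζ := fun i => p.x i) (ω := p.x j)
        (fun i => hp.1 i) (hp.1 j) hinj (fun i => g_ne hp i.2)
        (fun q q' h => sol_phi (j := j) hp k phB (RS S S' (fun i : {i // i ≠ j} => p.x i)
          (fun _ : Unit => p.x j) (p.y k)) (rtu AL.z0) h) ?_
      intro l hl
      obtain ⟨q, hq⟩ := pkj_exists j hX hL hp l hl
      refine ⟨q, hq.sol, ?_⟩
      have hcn : ∀ a, AL.cnp p a (.hi k) =
          (((fl a (p.y k)).1 + 1, (fl a (p.y k)).2), fl a (p.y k)) := by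
        intro a
        show AL.eHi _ _ = _
        unfold AL.eHi dir
        rw [if_pos hj]
        ext <;> simp
      refine kern_lim hl hp k (Or.inr rfl) hq.slim.B hq hS (fun a => Or.inr ⟨?_, rfl⟩)
        (fun a => rfl) (fun a => ?_) ?_
      · rw [hcn]
      · simp only [AL.wpos, if_pos hj]
      filter_upwards [hl hdia] with a ha
      rw [Kn_src, hcn]
      unfold jB AL.xB
      have : (((fl a (p.y k)).1 + 1, (fl a (p.y k)).2) : Site) ∈ Λ a :=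
        ha _ (by simp) (by simp)
      rw [if_pos this]
    · refine lim_of_sol (κ := {i // i ≠ j}) (ζ := fun i => p.x i) (ω := p.x j)
        (fun i => hp.1 i) (hp.1 j) hinj (fun i => g_ne hp i.2)
        (fun q q' h => sol_phi (j := j) hp k phC (RS S S' (fun i : {i // i ≠ j} => p.x i)
          (fun _ : Unit => p.x j) (p.y k)) (rtu AL.z0) h) ?_
      intro l hl
      obtain ⟨q, hq⟩ := pkj_exists j hX hL hp l hl
      refine ⟨q, hq.sol, ?_⟩
      have hcn : ∀ a, AL.cnp p a (.hi k) =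
          (((fl a (p.y k)).1, (fl a (p.y k)).2 + 1), fl a (p.y k)) := by
        intro a
        show AL.eHi _ _ = _
        unfold AL.eHi dir
        rw [if_neg hj]
        ext <;> simp
      refine kern_lim hl hp k (Or.inl rfl) hq.slim.C hq hS (fun a => Or.inl ⟨?_, rfl⟩)
        (fun a => rfl) (fun a => ?_) ?_
      · rw [hcn]
      · simp only [AL.wpos, if_neg hj]
      filter_upwards [hl hdia] with a ha
      rw [Kn_src, hcn]
      unfold jC AL.xC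
      have : (((fl a (p.y k)).1, (fl a (p.y k)).2 + 1) : Site) ∈ Λ a :=
        ha _ (by simp) (by simp)
      rw [if_pos this]

end src

end Vale.Agent.P144Q.G

namespace Vale.Agent.P144Q

/-- Kernels with a source at a spin. -/
theorem G.k12 (hX : ∀ Ω, SXj Ω) : SK12 := fun Ω _ hL _ hp =>
  ⟨fun i j hij => G.k1 (hX Ω) hL hp i j hij, fun k j => G.k2 (hX Ω) hL hp k j⟩

end Vale.Agent.P144Q
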