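import Vale.Agent.P144Q.Van0

/-!
The limit of the `H`-functions vanishes at the boundary and is not negative near it.
-/

namespace Vale.Agent.P144Q.V

open Filter Topology Metric Vale.Agent.P144
open Vale.Agent.P144.H170 (Pt pt nf ev_nf compact_ev cconv_iff pt_fl_norm)

theorem fat' {D : Set ℂ} (h : Fat D) : ∃ κ > (0 : ℝ), κ ≤ 1 ∧ ∃ r₀ > (0 : ℝ), ∀ z ∉ D, ∀ r,
    0 < r → r ≤ r₀ → ∃ w, ‖w - z‖ ≤ r ∧ ∀ u, ‖u - w‖ ≤ κ * r → u ∉ D := by
  obtain ⟨κ, hκ, r₀, hr, h⟩ := h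
  refine ⟨min κ 1, by positivity, min_le_right _ _, r₀, hr, fun z hz r h1 h2 => ?_⟩
  obtain ⟨w, h3, h4⟩ := h z hz r h1 h2
  exact ⟨w, h3, fun u hu => h4 u (hu.trans (mul_le_mul_of_nonneg_right (min_le_left _ _) h1.le))⟩

theorem king {a : ℝ} (ha : 0 < a) {x y : Site} (h1 : |y.1 - x.1| ≤ 1) (h2 : |y.2 - x.2| ≤ 1) :
    ‖pt a y - pt a x‖ ≤ 2 * a := by
  simpa using pt_sub_le ha (m := 1) (x := x) (y := y) (by simpa using h1) (by simpa using h2)

/-- The sites in an exterior disc. -/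
theorem ext_out {D : Set ℂ} {Λ : Finset Site} {a e s : ℝ} {w : ℂ} (ha : 0 < a)
    (hΛ : ∀ x ∈ Λ, ∃ z ∈ D, ‖pt a x - z‖ ≤ e) (hw : ∀ u, ‖u - w‖ ≤ s → u ∉ D)
    (hs : 2 * a + e ≤ s / 2) {x y : Site} (hx : ‖pt a x - w‖ ≤ s / 2) (h1 : |y.1 - x.1| ≤ 1)
    (h2 : |y.2 - x.2| ≤ 1) : y ∉ Λ := by
  intro hy
  obtain ⟨z, hz, h3⟩ := hΛ y hy
  refine hw z ?_ hz
  have a1 := norm_sub_le_norm_sub_add_norm_sub z (pt a y) w
  have a2 := norm_sub_le_norm_sub_add_norm_sub (pt a y) (pt a x) w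
  rw [norm_sub_rev z (pt a y)] at a1
  linarith [king ha h1 h2]

section

variable {D : Set ℂ} {ι : Type} {l : Filter ι} {a : ι → ℝ} {N : ι → Finset Site}
  {Hs Hf : ι → Site → ℝ} {K : Set ℂ} {h : ℂ → ℝ}

theorem small (H : HData D l a N Hs Hf K h) {s : ℝ} (hs : 0 < s) :
    ∀ᶠ k in l, 0 < a k ∧ a k < s :=
  (H.a0.eventually self_mem_nhdsWithin).and
    ((H.a0.mono_right nhdsWithin_le_nhds).eventually (gt_mem_nhds hs))

/-- The decay near a point outside `D`. -/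
theorem loc (hF : Fat D) (H : HData D l a N Hs Hf K h) {p : ℂ} (hp : p ∉ D) (hp' : p ∈ Dia)
    {ε : ℝ} (hε : 0 < ε) :
    ∀ᶠ kx in nf l a p, hat (N kx.1) (Hs kx.1) kx.2 ≤ ε ∧ -Hf kx.1 kx.2 ≤ ε := by
  obtain ⟨κ, hκ, hκ1, r₀, hr₀, hF⟩ := fat' hF
  have pK : p ∈ Dia \ K := ⟨hp', fun h' => hp (H.sub h')⟩
  obtain ⟨M, hM⟩ := H.bdd p pK
  obtain ⟨R, hR, hk⟩ := (ev_nf (P := fun k x => Reg (N k) (Hs k) (Hf k) x ∧
    Hs k x ≤ M ∧ -Hf k x ≤ M)).1 ((H.reg p pK).and hM)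
  have hM0 := abs_nonneg M
  have hM1 := le_abs_self M
  obtain ⟨n, hn⟩ := exists_pow_lt_of_lt_one (x := ε / (|M| + 1)) (y := 1 - (κ / 2) ^ 2 / 16)
    (by positivity) (by have : 0 < (κ / 2) ^ 2 / 16 := by positivity
                        linarith)
  have hn' : (1 - (κ / 2) ^ 2 / 16) ^ n * |M| ≤ ε := by
    rw [lt_div_iff₀ (by positivity)] at hn
    have : 0 ≤ (1 - (κ / 2) ^ 2 / 16) ^ n := pow_nonneg (by nlinarith) n
    nlinarith
  obtain ⟨t, ht⟩ : ∃ t, t = min (R / 2) r₀ / 9 ^ n := ⟨_, rfl⟩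
  have ht0 : 0 < t := by rw [ht]; positivity
  have ht1 : 9 ^ n * t = min (R / 2) r₀ := by rw [ht]; field_simp
  have ht2 := min_le_left (R / 2) r₀
  have ht3 := min_le_right (R / 2) r₀
  have ht4 : t ≤ 9 ^ n * t := le_mul_of_one_le_left ht0.le (one_le_pow₀ (by norm_num))
  have ht5 : κ * t ≤ t := mul_le_of_le_one_left ht0.le hκ1
  refine (ev_nf (P := fun k x => hat (N k) (Hs k) x ≤ ε ∧ -Hf k x ≤ ε)).2 ⟨t, ht0, ?_⟩
  filter_upwards [hk, H.hb, H.ap.sub (κ * t / 4) (by positivity),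
    small H (s := κ * t / 12) (by positivity)] with k h1 h2 h3 ⟨h4, h5⟩ x hx
  have ext : ∀ s, t ≤ s → s ≤ 9 ^ n * t → ∃ c, ‖c - p‖ ≤ s ∧ ∀ x, ‖pt (a k) x - c‖ ≤ κ / 2 * s →
      ∀ y : Site, |y.1 - x.1| ≤ 1 → |y.2 - x.2| ≤ 1 → y ∉ N k := by
    intro s b1 b2
    obtain ⟨w, b3, b4⟩ := hF p hp s (by linarith) (by linarith)
    have b5 := mul_le_mul_of_nonneg_left b1 hκ.le
    exact ⟨w, b3, fun x b6 y c1 c2 => ext_out h4 h3 b4 (by linarith) (by linarith) c1 c2⟩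
  constructor
  · refine le_trans (decay (u := hat (N k) (Hs k)) (z := p) (η := κ / 2) h4 (by linarith) hM0 n
      ht0 (by linarith) (fun y hy => ⟨h2.lap_hat (h1 y (by linarith)).1, ?_⟩)
      (fun s b1 b2 => ?_) hx) hn'
    · have nb : ∀ w : Site, |w.1 - y.1| ≤ 1 → |w.2 - y.2| ≤ 1 → Hs k w ≤ |M| := by
        intro w c1 c2
        have := norm_sub_le_norm_sub_add_norm_sub (pt (a k) w) (pt (a k) y) p
        exact (h1 w (by linarith [king h4 c1 c2])).2.1.trans hM1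
      by_cases hy' : y ∈ N k
      · rw [hat_in hy']; exact nb y (by simp) (by simp)
      · rw [h2.hat_out hy']
        linarith [nb (y.1 + 1, y.2) (by simp) (by simp), nb (y.1 - 1, y.2) (by simp) (by simp),
          nb (y.1, y.2 + 1) (by simp) (by simp), nb (y.1, y.2 - 1) (by simp) (by simp)]
    · obtain ⟨c, b3, b4⟩ := ext s b1 b2
      refine ⟨c, b3, fun y hy => ?_⟩
      rw [h2.hat_out (b4 y hy y (by simp) (by simp)),
        h2.out _ (b4 y hy (y.1 + 1, y.2) (by simp) (by simp)),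
        h2.out _ (b4 y hy (y.1 - 1, y.2) (by simp) (by simp)),
        h2.out _ (b4 y hy (y.1, y.2 + 1) (by simp) (by simp)),
        h2.out _ (b4 y hy (y.1, y.2 - 1) (by simp) (by simp))]
      norm_num
  · refine (le_max_left _ 0).trans (le_trans (decay (u := fun y => max (-Hf k y) 0) (z := p)
      (η := κ / 2) h4 (by linarith) hM0 n ht0 (by linarith)
      (fun y hy => ⟨h2.lap_neg (h1 y (by linarith)).1,
        max_le ((h1 y (by linarith)).2.2.trans hM1) hM0⟩) (fun s b1 b2 => ?_) hx) hn')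
    obtain ⟨c, b3, b4⟩ := ext s b1 b2
    refine ⟨c, b3, fun y hy => ?_⟩
    rw [h2.zero y y (by simp [AL.mem_cnr]) (b4 y hy y (by simp) (by simp))]
    simp

/-- The limit is small near a point outside `D`. -/
theorem loc_lim (hF : Fat D) (H : HData D l a N Hs Hf K h) {p : ℂ} (hp : p ∉ D) (hp' : p ∈ Dia)
    {ε : ℝ} (hε : 0 < ε) : ∀ᶠ z in 𝓝 p, z ∈ D → |h z| ≤ ε := by
  have := H.ne
  obtain ⟨r, hr, hk⟩ := (ev_nf (P := fun k x => hat (N k) (Hs k) x ≤ ε ∧ -Hf k x ≤ ε)).1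
    (loc hF H hp hp' hε)
  filter_upwards [ball_mem_nhds p (half_pos hr),
    H.cpt.isClosed.isOpen_compl.mem_nhds fun h' => hp (H.sub h')] with z h1 h2 h3
  rw [mem_ball, dist_eq_norm] at h1
  have key : ∀ᶠ k in l, Hs k (fl (a k) z) ≤ ε ∧ -Hf k (fl (a k) z) ≤ ε := by
    filter_upwards [hk, H.hb, small H (s := r / 4) (by positivity)] with k b1 b2 ⟨b3, b4⟩
    have b5 := norm_sub_le_norm_sub_add_norm_sub (pt (a k) (fl (a k) z)) z p
    have b6 := b1 (fl (a k) z) (by linarith [pt_fl_norm b3 z])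
    exact ⟨(b2.le_hat _).trans b6.1, b6.2⟩
  have a1 := le_of_tendsto (H.hs.at H.a0 ⟨h3, h2⟩) (key.mono fun k hk => hk.1)
  have a2 := le_of_tendsto (H.hf.at H.a0 ⟨h3, h2⟩).neg (key.mono fun k hk => hk.2)
  exact abs_le.2 ⟨by linarith, a1⟩

theorem van0 (hD : IsOpen D) (hD' : D ⊆ ball 0 (1 / 4)) (hF : Fat D)
    (H : HData D l a N Hs Hf K h) : Van D h := by
  intro ε hε
  have hc : IsCompact (closedBall (0:ℂ) (1 / 2) \ D) := (isCompact_closedBall _ _).diff hD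
  obtain ⟨δ, hδ, h1⟩ := hc.exists_thickening_subset_open
    (t := interior {z | z ∈ D → |h z| ≤ ε}) isOpen_interior fun p hp =>
      mem_interior_iff_mem_nhds.2 (loc_lim hF H hp.2 (ball_Dia (by simpa using hp.1)) hε)
  refine ⟨min δ (1 / 4), by positivity, fun z hz h2 => ?_⟩
  have hne : Dᶜ.Nonempty := ⟨1, fun h' => by
    have := hD' h'
    norm_num at this⟩
  obtain ⟨y, hy, h3⟩ := (infDist_lt_iff hne).1 h2
  refine interior_subset (h1 (mem_thickening_iff.2 ⟨y, ⟨?_, hy⟩, h3.trans_le (min_le_left _ _)⟩)) hz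
  have a1 := mem_ball.1 (hD' hz)
  have a2 := dist_triangle_left y 0 z
  rw [mem_closedBall]
  linarith [min_le_right δ (1 / 4)]

theorem sgn0 (hD : IsOpen D) (hD' : D ⊆ ball 0 (1 / 4)) (hF : Fat D)
    (H : HData D l a N Hs Hf K h) : Sgn D h := by
  intro p hp r hr
  have := H.ne
  by_contra hc
  push Not at hc
  have hpD : p ∉ D := by rw [hD.frontier_eq] at hp; exact hp.2
  have hp4 : ‖p‖ ≤ 1 / 4 := by
    have := closure_mono hD' (frontier_subset_closure hp)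
    rw [closure_ball _ (by norm_num)] at this
    simpa using this
  obtain ⟨κ, hκ, hκ1, r₀, hr₀, hF'⟩ := fat' hF
  obtain ⟨r1, hr1, h1⟩ := Metric.mem_nhds_iff.1
    (H.cpt.isClosed.isOpen_compl.mem_nhds fun h' => hpD (H.sub h'))
  obtain ⟨s, hs, s1, s2, s3, s4⟩ : ∃ s > (0:ℝ), 10 * s < r ∧ 10 * s < r1 ∧ s ≤ r₀ ∧
      10 * s ≤ 1 / 4 := by
    refine ⟨min (min (r / 20) (r1 / 20)) (min r₀ (1 / 40)), by positivity, ?_, ?_, ?_, ?_⟩
    · linarith [min_le_left (min (r / 20) (r1 / 20)) (min r₀ (1 / 40)),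
        min_le_left (r / 20) (r1 / 20)]
    · linarith [min_le_left (min (r / 20) (r1 / 20)) (min r₀ (1 / 40)),
        min_le_right (r / 20) (r1 / 20)]
    · exact (min_le_right _ _).trans (min_le_left _ _)
    · linarith [min_le_right (min (r / 20) (r1 / 20)) (min r₀ (1 / 40)),
        min_le_right r₀ (1 / 40)]
  have inB : ∀ z ∈ closedBall p (10 * s), z ∈ Dia \ K ∧ ‖z - p‖ < r := by
    intro z hz
    rw [mem_closedBall] at hz
    refine ⟨⟨ball_Dia ?_, h1 (mem_ball.2 (by linarith))⟩, by rw [← dist_eq_norm]; linarith⟩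
    have := norm_add_le (z - p) p
    rw [sub_add_cancel, ← dist_eq_norm] at this
    linarith
  obtain ⟨z, hz, h2⟩ := Metric.mem_closure_iff.1 (frontier_subset_closure hp) (s / 2)
    (by positivity)
  rw [dist_comm] at h2
  obtain ⟨h3, h4⟩ := inB z (mem_closedBall.2 (by linarith))
  rw [dist_eq_norm] at h2
  have hm := hc z hz h4
  obtain ⟨δ0, hδ0, h5⟩ := (ev_nf (P := fun k x => hat (N k) (Hs k) x ≤ h z / 2)).1 (by
    filter_upwards [H.ap.inn z hz, (cconv_iff.1 H.hs z ⟨hz, h3.2⟩).eventually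
      (gt_mem_nhds (by linarith : h z < h z / 2))] with kx b1 b2
    rw [hat_in b1]; exact b2.le)
  obtain ⟨δ, hδ, d1, d2⟩ : ∃ δ > (0:ℝ), δ ≤ δ0 ∧ δ ≤ s :=
    ⟨min δ0 s, by positivity, min_le_left _ _, min_le_right _ _⟩
  obtain ⟨ε, hε⟩ : ∃ ε, ε = -h z / 4 * (δ / (4 * s)) ^ 2 := ⟨_, rfl⟩
  have hq : 0 < (δ / (4 * s)) ^ 2 := by positivity
  have hε0 : 0 < ε := by rw [hε]; exact mul_pos (by linarith) hq
  have h6 := compact_ev (l := l) (a := a) (isCompact_closedBall p (10 * s))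
    (P := fun k x => Reg (N k) (Hs k) (Hf k) x ∧ hat (N k) (Hs k) x ≤ ε) fun y hy => by
      obtain ⟨b1, b2⟩ := inB y hy
      refine (H.reg y b1).and ?_
      by_cases hyD : y ∈ D
      · filter_upwards [H.ap.inn y hyD, (cconv_iff.1 H.hs y ⟨hyD, b1.2⟩).eventually
          (gt_mem_nhds ((hc y hyD b2).trans hε0))] with kx b3 b4
        rw [hat_in b3]; exact b4.le
      · exact (loc hF H hyD b1.1 hε0).mono fun kx b3 => b3.1
  obtain ⟨w, h7, h8⟩ := hF' p hpD s hs s3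
  have h9 : κ * s ≤ s := mul_le_of_le_one_left hs.le hκ1
  obtain ⟨k, b1, b2, b3, b4, ⟨b5, b6⟩, -, b7⟩ := (h5.and (h6.and (H.hb.and
    ((H.ap.sub (κ * s / 4) (by positivity)).and ((small H (s := κ * s / 8) (by positivity)).and
    (small H (s := δ / 6) (by positivity))))))).exists
  have c1 := pt_fl_norm b5 w
  have c2 : fl (a k) w ∉ N k :=
    ext_out b5 b4 h8 (by linarith) (x := fl (a k) w) (by linarith) (by simp) (by simp)
  have key := two (u := hat (N k) (Hs k)) (c := z) (r := δ) (ρ := 4 * s) (α := h z / 2) (β := ε)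
    b5 (by linarith) (by linarith) (by linarith) (fun x hx => by
      have c3 := norm_sub_le_norm_sub_add_norm_sub (pt (a k) x) z p
      obtain ⟨c4, c5⟩ := b2 x (by rw [mem_closedBall, dist_eq_norm]; linarith)
      exact ⟨b3.lap_hat c4, c5⟩) (fun x hx => b1 x (hx.trans d1)) (x := fl (a k) w) (by
      have c3 := norm_sub_le_norm_sub_add_norm_sub (pt (a k) (fl (a k) w)) w z
      have c4 := norm_sub_le_norm_sub_add_norm_sub w p z
      rw [norm_sub_rev p z] at c4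
      linarith)
  have c3 := b3.hat_nn c2
  nlinarith [mul_pos hε0 hq]

end

theorem van : SVan := fun _ hD hD' hF _ _ _ _ _ _ _ _ H => ⟨van0 hD hD' hF H, sgn0 hD hD' hF H⟩

end Vale.Agent.P144Q.V
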