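import Vale.Agent.P144Q.BFin
import Vale.Agent.P144Q.BXj
import Vale.Agent.P144Q.U.Uni
import Vale.Agent.P144Q.Van
import Vale.Agent.P144Q.R.Bdc
import Vale.Agent.P144Q.R.Uc
import Vale.Agent.P144Q.Cm
import Vale.Agent.P144Q.L.Lat
import Vale.Agent.P144Q.K12
import Vale.Agent.P144Q.A.Xj
import Vale.Agent.P144Q.C.K34
import Vale.Agent.P144Q.E.Norm

/-!
Existence of the scaling limits in simply connected domains with free boundary conditions.
-/

namespace Vale.Agent.P144Q

theorem smap : SMap := fun _ h hsc => (M.cm h.1 h.2.1 hsc).elim fun c => ⟨c, R.uc c h⟩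

theorem sfin : SFin :=
  B.fin (U.dom V.van R.bdc smap L.fat) L.lat smap (G.k12 A.xj) C.k34 (B.ratio A.xj) E.norm

end Vale.Agent.P144Q
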