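import Vale.Agent.P144Q.Map1

/-!
The conformal map of a domain of the class is uniformly continuous.
-/

namespace Vale.Agent.P144Q.M

open Filter Topology Metric Set

/-- The uniform inner cone condition. -/
def IC (D : Set ℂ) : Prop := ∃ c > (0 : ℝ), ∃ r > (0 : ℝ), ∀ z : ℂ, ∃ μ : ℂ, ‖μ‖ = 1 ∧
  ∀ y ∈ D, ‖y - z‖ ≤ r → ∀ t : ℝ, 0 < t → t ≤ r → ball (y + t * μ) (c * t) ⊆ D

theorem inner_le (a b : ℂ) : |a.re * b.re + a.im * b.im| ≤ ‖a‖ * ‖b‖ := by
  have h := Complex.abs_re_le_norm (a * (starRingEnd ℂ) b)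
  rw [norm_mul, Complex.norm_conj] at h
  simpa using h

theorem cone_mem {S : Set ℂ} {ν μ y e : ℂ} {κ γ t : ℝ} (hκ1 : κ ≤ 1) (hκ : 0 ≤ κ) (hν : ‖ν‖ = 1)
    (hμ : ‖μ‖ = 1) (h : κ + γ ≤ μ.re * ν.re + μ.im * ν.im) (hS : P144Z.Cone S ν κ) (hy : y ∈ S)
    (ht : 0 < t) (he : ‖e‖ ≤ γ / 2 * t) : y + (t * μ + e) ∈ S := by
  refine hS y hy _ ?_
  have h1 : ‖(t : ℂ) * μ + e‖ ≤ t + ‖e‖ := by
    refine (norm_add_le _ _).trans (le_of_eq ?_)
    rw [norm_mul, hμ, Complex.norm_real, Real.norm_eq_abs, abs_of_pos ht, mul_one]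
  have h2 := (abs_le.1 (inner_le e ν)).1
  rw [hν, mul_one] at h2
  simp only [Complex.add_re, Complex.add_im, Complex.re_ofReal_mul, Complex.im_ofReal_mul]
  nlinarith [mul_le_mul_of_nonneg_left h ht.le, mul_le_mul_of_nonneg_left h1 hκ,
    mul_le_mul_of_nonneg_right hκ1 (norm_nonneg e)]

theorem ic {D : Set ℂ} (h : Lip2 D) : IC D := by
  obtain ⟨-, -, κ, γ, r, hκ, hκ1, hγ, hr, h⟩ := h
  refine ⟨γ / 2, by positivity, r / 4, by positivity, fun z => ?_⟩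
  obtain ⟨S₁, S₂, ν₁, ν₂, μ, h1, h2, hμ, h3, h4, hS1, hS2, hD⟩ := h z
  refine ⟨μ, hμ, fun y hy hyz t ht htr u hu => ?_⟩
  have hγ1 : γ ≤ 1 := by
    have := (abs_le.1 (inner_le μ ν₁)).2
    rw [hμ, h1] at this
    linarith
  have hy' : y ∈ S₁ ∩ S₂ ∩ ball z r := by
    rw [← hD]; exact ⟨hy, by rw [mem_ball, dist_eq_norm]; linarith⟩
  rw [mem_ball, dist_eq_norm] at hu
  have e : u = y + (t * μ + (u - (y + t * μ))) := by ring
  have hu' : u ∈ S₁ ∩ S₂ ∩ ball z r := by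
    refine ⟨⟨?_, ?_⟩, ?_⟩
    · rw [e]; exact cone_mem (by linarith) hκ h1 hμ h3 hS1 hy'.1.1 ht hu.le
    · rw [e]; exact cone_mem (by linarith) hκ h2 hμ h4 hS2 hy'.1.2 ht hu.le
    · rw [mem_ball, dist_eq_norm]
      have e2 : u - z = (u - (y + t * μ)) + (t * μ + (y - z)) := by ring
      have h5 : ‖(t : ℂ) * μ‖ = t := by
        rw [norm_mul, hμ, Complex.norm_real, Real.norm_eq_abs, abs_of_pos ht, mul_one]
      have h6 := norm_add_le (u - (y + t * μ)) (t * μ + (y - z))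
      have h7 := norm_add_le ((t : ℂ) * μ) (y - z)
      rw [e2]
      nlinarith
  rw [← hD] at hu'
  exact hu'.1

/-- The derivative of the conformal map. -/
theorem deriv_holder {D : Set ℂ} (c : Cm D) (hne : D ≠ univ) {C α : ℝ} (hC : 0 < C) (hα : α ≤ 1)
    (h : ∀ ζ ∉ D, ∀ z ∈ D, 1 - ‖c.φ z‖ ≤ C * ‖z - ζ‖ ^ α) {p : ℂ} {ρ : ℝ} (hρ : 0 < ρ)
    (hp : ball p ρ ⊆ D) : ‖deriv c.φ p‖ ≤ 4 * C * ρ ^ (α - 1) := by
  have hpD := hp (mem_ball_self hρ)
  obtain ⟨ζ, hζ, hd⟩ := c.op.isClosed_compl.exists_infDist_eq_dist (nonempty_compl.2 hne) p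
  have hb : ball p (dist p ζ) ⊆ D := hd ▸ ball_infDist_compl_subset
  have hρd : ρ ≤ dist p ζ := by
    by_contra hlt
    exact hζ (hp (by rw [mem_ball, dist_comm]; exact not_le.1 hlt))
  have hd0 : 0 < dist p ζ := hρ.trans_le hρd
  have h1 := deriv_le hd0 (c.φd.mono hb) (c.φm.mono_left hb)
  have h2 := h ζ hζ p hpD
  rw [← dist_eq_norm] at h2
  calc ‖deriv c.φ p‖ ≤ 4 * (1 - ‖c.φ p‖) / dist p ζ := h1
    _ ≤ 4 * (C * dist p ζ ^ α) / dist p ζ := by gcongr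
    _ = 4 * C * dist p ζ ^ (α - 1) := by rw [Real.rpow_sub_one hd0.ne']; ring
    _ ≤ _ := mul_le_mul_of_nonneg_left
      (Real.rpow_le_rpow_of_nonpos hρ hρd (by linarith)) (by positivity)

/-- The variation along an inner ray. -/
theorem ray {D : Set ℂ} {φ : ℂ → ℂ} (ho : IsOpen D) (hφ : DifferentiableOn ℂ φ D) {M α T : ℝ}
    (hM : 0 ≤ M) {y μ : ℂ} (hμ : ‖μ‖ = 1) (hy : y ∈ D) (hT : 0 < T)
    (hD : ∀ t : ℝ, 0 < t → t ≤ T → y + t * μ ∈ D)
    (hd : ∀ t : ℝ, 0 < t → t ≤ T → ‖deriv φ (y + t * μ)‖ ≤ M * (α * t ^ (α - 1))) :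
    ‖φ (y + T * μ) - φ y‖ ≤ M * T ^ α := by
  have hder : ∀ t : ℝ, y + t * μ ∈ D →
      HasDerivAt (fun s : ℝ => φ (y + s * μ)) (deriv φ (y + t * μ) * μ) t := by
    intro t ht
    have h1 : HasDerivAt (fun s : ℂ => φ (y + s * μ)) (deriv φ (y + t * μ) * μ) (t : ℂ) := by
      have h2 : HasDerivAt (fun s : ℂ => y + s * μ) μ (t : ℂ) := by
        simpa using ((hasDerivAt_id (t : ℂ)).mul_const μ).const_add y
      exact (hφ.differentiableAt (ho.mem_nhds ht)).hasDerivAt.comp (t : ℂ) h2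
    exact h1.comp_ofReal
  have key : ∀ s ∈ Ioo (0 : ℝ) T, ‖φ (y + T * μ) - φ (y + s * μ)‖ ≤ M * T ^ α := by
    intro s hs
    have hB : ∀ t ∈ Icc s T, HasDerivAt (fun t : ℝ => M * t ^ α) (M * (α * t ^ (α - 1))) t :=
      fun t ht => (Real.hasDerivAt_rpow_const (Or.inl (hs.1.trans_le ht.1).ne')).const_mul M
    have hf : ∀ t ∈ Icc s T, HasDerivAt (fun t : ℝ => φ (y + t * μ) - φ (y + s * μ))
        (deriv φ (y + t * μ) * μ) t :=
      fun t ht => (hder t (hD t (hs.1.trans_le ht.1) ht.2)).sub_const _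
    refine image_norm_le_of_norm_deriv_right_le_deriv_boundary'
      (f := fun t : ℝ => φ (y + t * μ) - φ (y + s * μ)) (B := fun t : ℝ => M * t ^ α)
      (fun t ht => (hf t ht).continuousAt.continuousWithinAt)
      (fun t ht => (hf t (Ico_subset_Icc_self ht)).hasDerivWithinAt) ?_
      (fun t ht => (hB t ht).continuousAt.continuousWithinAt)
      (fun t ht => (hB t (Ico_subset_Icc_self ht)).hasDerivWithinAt) (fun t ht => ?_)
      (right_mem_Icc.2 hs.2.le)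
    · have := Real.rpow_nonneg hs.1.le α
      simp only [sub_self, norm_zero]
      positivity
    · rw [norm_mul, hμ, mul_one]
      exact hd t (hs.1.trans_le ht.1) ht.2.le
  have hc : ContinuousAt (fun s : ℝ => ‖φ (y + T * μ) - φ (y + s * μ)‖) 0 :=
    (continuousAt_const.sub (hder 0 (by simpa using hy)).continuousAt).norm
  have hlim := hc.tendsto.mono_left (nhdsWithin_le_nhds (s := Ioi 0))
  simp only [Complex.ofReal_zero, zero_mul, add_zero] at hlim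
  refine le_of_tendsto hlim ?_
  filter_upwards [Ioo_mem_nhdsGT hT] with s hs using key s hs

theorem unif {D : Set ℂ} (c : Cm D) (hne : D ≠ univ) (hf : Fat D) (hi : IC D) :
    UniformContinuousOn c.φ D := by
  obtain ⟨C, α, hC, hα, hα1, hH⟩ := holder c hf
  obtain ⟨b, hb, r, hr, hi⟩ := hi
  set M := 4 * C * b ^ (α - 1) / α with hM
  have hM0 : 0 < M := by have := Real.rpow_pos_of_pos hb (α - 1); positivity
  rw [Metric.uniformContinuousOn_iff]
  intro ε hε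
  obtain ⟨T, hT, hTr, hTε⟩ : ∃ T : ℝ, 0 < T ∧ T ≤ r ∧ M * T ^ α < ε / 3 := by
    have h1 : ContinuousAt (fun t : ℝ => M * t ^ α) 0 :=
      continuousAt_const.mul (Real.continuousAt_rpow_const 0 α (Or.inr hα.le))
    have h2 := h1.tendsto.mono_left (nhdsWithin_le_nhds (s := Ioi 0))
    simp only [Real.zero_rpow hα.ne', mul_zero] at h2
    obtain ⟨T, h3, h4⟩ := ((h2.eventually (gt_mem_nhds (show 0 < ε / 3 by positivity))).and
      (Ioc_mem_nhdsGT hr)).exists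
    exact ⟨T, h4.1, h4.2, h3⟩
  have hbT : 0 < b * T := by positivity
  refine ⟨min r (min (b * T / 2) (b * T * ε / 12)), by positivity, fun z hz z' hz' hzz => ?_⟩
  rw [lt_min_iff, lt_min_iff, dist_comm, dist_eq_norm] at hzz
  obtain ⟨μ, hμ, hc⟩ := hi z
  have hray : ∀ y ∈ D, ‖y - z‖ ≤ r → ‖c.φ (y + T * μ) - c.φ y‖ ≤ M * T ^ α := by
    intro y hy hyz
    refine ray c.op c.φd hM0.le hμ hy hT
      (fun t ht htT => hc y hy hyz t ht (htT.trans hTr) (mem_ball_self (by positivity)))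
      fun t ht htT => ?_
    refine (deriv_holder c hne hC hα1 hH (by positivity) (hc y hy hyz t ht (htT.trans hTr))).trans
      (le_of_eq ?_)
    rw [Real.mul_rpow hb.le ht.le, hM]
    field_simp
  have h1 := hray z hz (by simpa using hr.le)
  have h2 := hray z' hz' hzz.1.le
  have hball := hc z hz (by simpa using hr.le) T hT hTr
  have e : z' + T * μ - (z + T * μ) = z' - z := by ring
  have h3 := sp (z' := z' + T * μ) hbT (c.φd.mono hball) (c.φm.mono_left hball)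
    (by rw [e]; exact hzz.2.1.le)
  rw [e] at h3
  have h4 : 4 * (1 - ‖c.φ (z + T * μ)‖) / (b * T) * ‖z' - z‖ ≤ ε / 3 := by
    calc _ ≤ 4 * 1 / (b * T) * (b * T * ε / 12) := by
          gcongr
          · linarith [norm_nonneg (c.φ (z + T * μ))]
          · exact hzz.2.2.le
      _ = _ := by field_simp; ring
  rw [dist_eq_norm]
  have e2 : c.φ z - c.φ z' = (c.φ (z' + T * μ) - c.φ z') - (c.φ (z + T * μ) - c.φ z) -
      (c.φ (z' + T * μ) - c.φ (z + T * μ)) := by ring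
  have h5 := norm_sub_le ((c.φ (z' + T * μ) - c.φ z') - (c.φ (z + T * μ) - c.φ z))
    (c.φ (z' + T * μ) - c.φ (z + T * μ))
  have h6 := norm_sub_le (c.φ (z' + T * μ) - c.φ z') (c.φ (z + T * μ) - c.φ z)
  rw [e2]
  linarith

/-- The conformal map. -/
theorem map (hf : SFat) : SMap := fun D hD hsc => by
  obtain ⟨c⟩ := cm hD.1 hD.2.1 hsc
  exact ⟨c, unif c (ne_univ hD.2.1) (hf D hD) (ic hD)⟩

end Vale.Agent.P144Q.M
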