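import Vale.Agent.P144Q.Cm

/-!
The Schwarz-Pick estimate and the decay of the conformal map at the boundary.
-/

namespace Vale.Agent.P144Q.M

open Filter Topology Metric Set

theorem mob_le {a w : ℂ} (ha : ‖a‖ < 1) (hw : ‖w‖ < 1) :
    ‖w - a‖ ≤ ‖1 - (starRingEnd ℂ) a * w‖ := by
  have h1 : a.re ^ 2 + a.im ^ 2 < 1 := by
    have := Complex.sq_norm a
    rw [Complex.normSq_apply] at this
    nlinarith [norm_nonneg a]
  have h2 : w.re ^ 2 + w.im ^ 2 < 1 := by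
    have := Complex.sq_norm w
    rw [Complex.normSq_apply] at this
    nlinarith [norm_nonneg w]
  refine (sq_le_sq₀ (norm_nonneg _) (norm_nonneg _)).1 ?_
  rw [Complex.sq_norm, Complex.sq_norm, Complex.normSq_apply, Complex.normSq_apply]
  simp only [Complex.sub_re, Complex.sub_im, Complex.mul_re, Complex.mul_im, Complex.one_re,
    Complex.one_im, Complex.conj_re, Complex.conj_im]
  nlinarith [mul_pos (sub_pos.2 h1) (sub_pos.2 h2)]

theorem mob_ne {a w : ℂ} (ha : ‖a‖ < 1) (hw : ‖w‖ < 1) : 1 - (starRingEnd ℂ) a * w ≠ 0 := by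
  intro h
  have h1 : ‖(starRingEnd ℂ) a * w‖ = 1 := by
    rw [← sub_eq_zero.1 h]; simp
  rw [norm_mul, Complex.norm_conj] at h1
  nlinarith [norm_nonneg a, norm_nonneg w]

/-- The Schwarz-Pick estimate. -/
theorem sp {φ : ℂ → ℂ} {z z' : ℂ} {d : ℝ} (hd0 : 0 < d) (hd : DifferentiableOn ℂ φ (ball z d))
    (hm : MapsTo φ (ball z d) (ball 0 1)) (h : ‖z' - z‖ ≤ d / 2) :
    ‖φ z' - φ z‖ ≤ 4 * (1 - ‖φ z‖) / d * ‖z' - z‖ := by
  have hn : ∀ u ∈ ball z d, ‖φ u‖ < 1 := fun u hu => by simpa using hm hu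
  have ha := hn z (mem_ball_self hd0)
  have hz' : z' ∈ ball z d := by rw [mem_ball, dist_eq_norm]; linarith
  have hw := hn z' hz'
  set G : ℂ → ℂ := fun u => (φ u - φ z) / (1 - (starRingEnd ℂ) (φ z) * φ u) with hG
  have hGd : DifferentiableOn ℂ G (ball z d) :=
    (hd.sub_const _).div ((hd.const_mul _).const_sub _) fun u hu => mob_ne ha (hn u hu)
  have hG0 : G z = 0 := by simp [hG]
  have hGm : MapsTo G (ball z d) (closedBall (G z) 1) := by
    intro u hu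
    rw [hG0, mem_closedBall_zero_iff, hG]
    simp only [norm_div]
    exact div_le_one_of_le₀ (mob_le ha (hn u hu)) (norm_nonneg _)
  have h1 := Complex.dist_le_div_mul_dist_of_mapsTo_ball hGd hGm hz'
  rw [hG0, dist_zero_right, dist_eq_norm, hG] at h1
  simp only [norm_div] at h1
  rw [div_le_iff₀ (norm_pos_iff.2 (mob_ne ha hw))] at h1
  set t := 1 / d * ‖z' - z‖ with ht
  have ht0 : 0 ≤ t := by positivity
  have ht1 : t ≤ 1 / 2 := by
    rw [ht, one_div, inv_mul_le_iff₀ hd0]; linarith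
  have h2 : ‖1 - (starRingEnd ℂ) (φ z) * φ z'‖ ≤ 2 * (1 - ‖φ z‖) + ‖φ z' - φ z‖ := by
    have e : 1 - (starRingEnd ℂ) (φ z) * φ z' =
        ((1 - ‖φ z‖ ^ 2 : ℝ) : ℂ) - (starRingEnd ℂ) (φ z) * (φ z' - φ z) := by
      push_cast
      rw [← Complex.conj_mul']; ring
    rw [e]
    refine (norm_sub_le _ _).trans (add_le_add ?_ ?_)
    · rw [Complex.norm_real, Real.norm_eq_abs, abs_of_nonneg (by nlinarith [norm_nonneg (φ z)])]
      nlinarith
    · rw [norm_mul, Complex.norm_conj]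
      exact mul_le_of_le_one_left (norm_nonneg _) ha.le
  have e2 : 4 * (1 - ‖φ z‖) / d * ‖z' - z‖ = 4 * (1 - ‖φ z‖) * t := by rw [ht]; ring
  rw [e2]
  nlinarith [mul_le_mul_of_nonneg_left h2 ht0, norm_nonneg (φ z' - φ z),
    mul_le_mul_of_nonneg_right ht1 (norm_nonneg (φ z' - φ z))]

theorem deriv_le {φ : ℂ → ℂ} {z : ℂ} {d : ℝ} (hd0 : 0 < d) (hd : DifferentiableOn ℂ φ (ball z d))
    (hm : MapsTo φ (ball z d) (ball 0 1)) : ‖deriv φ z‖ ≤ 4 * (1 - ‖φ z‖) / d := by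
  have ha : ‖φ z‖ < 1 := by simpa using hm (mem_ball_self hd0)
  refine norm_deriv_le_of_lip' (by have := sub_pos.2 ha; positivity) ?_
  filter_upwards [closedBall_mem_nhds z (half_pos hd0)] with u hu
  exact sp hd0 hd hm (by rwa [mem_closedBall, dist_eq_norm] at hu)

/-- One step of the decay. -/
theorem step {D : Set ℂ} (c : Cm D) {A ρ : ℝ} {n : ℕ} {w z : ℂ} (hA : 1 < A) (hρ : 0 < ρ)
    (hn : n ≠ 0) (hw : ∀ u, ‖u - w‖ ≤ ρ → u ∉ D)
    (hP : ∀ u ∈ D, ‖u - w‖ ≤ A ^ 2 * ρ → 1 / A ≤ ‖c.φ u‖ ^ n) (hz : z ∈ D)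
    (hzw : ‖z - w‖ ≤ A * ρ) : 1 / A ≤ ‖c.φ z‖ ^ (2 * n) := by
  have hA0 : 0 < A := by linarith
  have hφ : ‖c.φ z‖ < 1 := by simpa using c.φm hz
  have hfar : ∀ x ∈ ball (0 : ℂ) 1, ρ < ‖c.ψ x - w‖ := fun x hx =>
    lt_of_not_ge fun h => hw _ h (c.ψm hx)
  have key : ∀ s : ℝ, ‖c.φ z‖ < s → s < 1 → 1 / A * s ^ (2 * n) ≤ ‖c.φ z‖ ^ (2 * n) := by
    intro s hs hs1
    have hs0 : 0 < s := (norm_nonneg _).trans_lt hs
    have hsub : closedBall (0 : ℂ) s ⊆ ball 0 1 := closedBall_subset_ball hs1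
    have hψc : ContinuousOn c.ψ (closedBall 0 s) := c.ψd.continuousOn.mono hsub
    set U : Set ℂ := ball 0 s ∩ c.ψ ⁻¹' ball w (A ^ 2 * ρ) with hU
    set K : Set ℂ := closedBall 0 s ∩ c.ψ ⁻¹' closedBall w (A ^ 2 * ρ) with hK
    have hUo : IsOpen U :=
      (hψc.mono ball_subset_closedBall).isOpen_inter_preimage isOpen_ball isOpen_ball
    have hKc : IsClosed K := hψc.preimage_isClosed_of_isClosed isClosed_closedBall isClosed_closedBall
    have hUK : closure U ⊆ K := closure_minimal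
      (inter_subset_inter ball_subset_closedBall (preimage_mono ball_subset_closedBall)) hKc
    have hlow : ∀ x ∈ K, 1 / A ≤ ‖x‖ ^ n := by
      intro x hx
      have hx1 := hsub hx.1
      have := hP _ (c.ψm hx1) (by simpa [dist_eq_norm] using hx.2)
      rwa [c.ri x hx1] at this
    have hne : ∀ x ∈ K, (c.ψ x - w) * x ^ (2 * n) ≠ 0 := by
      intro x hx
      refine mul_ne_zero (norm_pos_iff.1 (hρ.trans (hfar x (hsub hx.1)))) (pow_ne_zero _ ?_)
      rintro rfl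
      have := hlow _ hx
      rw [norm_zero, zero_pow hn] at this
      exact absurd this (not_le.2 (by positivity))
    set g : ℂ → ℂ := fun x => ρ / ((c.ψ x - w) * x ^ (2 * n)) with hg
    have hgn : ∀ x, ‖g x‖ = ρ / (‖c.ψ x - w‖ * ‖x‖ ^ (2 * n)) := fun x => by
      simp [hg, abs_of_pos hρ]
    have hgd : DifferentiableOn ℂ g (closure U) := by
      refine DifferentiableOn.mono (t := K) ?_ hUK
      refine (differentiableOn_const _).div (((c.ψd.mono fun x hx => hsub hx.1).sub_const _).mul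
        (differentiableOn_id.pow _)) hne
    have hsp : 0 < s ^ (2 * n) := by positivity
    have hfr : ∀ x ∈ frontier U, ‖g x‖ ≤ 1 / s ^ (2 * n) := by
      intro x hx
      rw [hUo.frontier_eq] at hx
      have hxK := hUK hx.1
      have h1 := hfar x (hsub hxK.1)
      have h2 := hlow x hxK
      have hpos : 0 < ‖c.ψ x - w‖ * ‖x‖ ^ (2 * n) := by
        have := norm_pos_iff.2 (hne x hxK)
        rwa [norm_mul, norm_pow] at this
      rw [hgn, div_le_div_iff₀ hpos hsp, one_mul]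
      by_cases hxs : ‖x‖ < s
      · have h3 : A ^ 2 * ρ ≤ ‖c.ψ x - w‖ := by
          by_contra hlt
          exact hx.2 ⟨by simpa using hxs, by simpa [dist_eq_norm] using hlt⟩
        have h4 : (1 / A) ^ 2 ≤ ‖x‖ ^ (2 * n) := by
          rw [mul_comm 2 n, pow_mul]; exact pow_le_pow_left₀ (by positivity) h2 2
        have h5 : s ^ (2 * n) ≤ 1 := pow_le_one₀ hs0.le hs1.le
        calc ρ * s ^ (2 * n) ≤ ρ * 1 := by gcongr
          _ = A ^ 2 * ρ * (1 / A) ^ 2 := by field_simp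
          _ ≤ _ := by gcongr
      · have h4 : s ^ (2 * n) ≤ ‖x‖ ^ (2 * n) := pow_le_pow_left₀ hs0.le (not_lt.1 hxs) _
        gcongr
    have hzU : c.φ z ∈ U := by
      refine ⟨by simpa using hs, ?_⟩
      rw [mem_preimage, c.li z hz, mem_ball, dist_eq_norm]
      nlinarith [mul_pos hA0 hρ]
    have hmain := Complex.norm_le_of_forall_mem_frontier_norm_le
      (isBounded_ball.subset inter_subset_left) hgd.diffContOnCl hfr (subset_closure hzU)
    have hpos : 0 < ‖c.ψ (c.φ z) - w‖ * ‖c.φ z‖ ^ (2 * n) := by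
      have := norm_pos_iff.2 (hne _ (hUK (subset_closure hzU)))
      rwa [norm_mul, norm_pow] at this
    rw [hgn, div_le_div_iff₀ hpos hsp, one_mul, c.li z hz] at hmain
    have h6 : ρ * s ^ (2 * n) ≤ A * ρ * ‖c.φ z‖ ^ (2 * n) := hmain.trans (by gcongr)
    rw [one_div, inv_mul_le_iff₀ hA0]
    nlinarith [h6]
  have hlim : Tendsto (fun s : ℝ => 1 / A * s ^ (2 * n)) (𝓝[<] 1) (𝓝 (1 / A * 1 ^ (2 * n))) :=
    (Continuous.tendsto (by fun_prop) _).mono_left nhdsWithin_le_nhds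
  rw [one_pow, mul_one] at hlim
  refine le_of_tendsto hlim ?_
  filter_upwards [Ioo_mem_nhdsLT hφ] with s hs using key s hs.1 hs.2

theorem bern {x A : ℝ} {n : ℕ} (hA : 0 < A) (h0 : 0 ≤ x) (h1 : x ≤ 1) (h : 1 / A ≤ x ^ n) :
    n * (1 - x) ≤ A := by
  have h2 : 1 + n * (1 - x) ≤ (1 + (1 - x)) ^ n := one_add_mul_le_pow (by linarith) n
  have h3 : x ^ n * (1 + (1 - x)) ^ n ≤ 1 := by
    rw [← mul_pow]
    exact pow_le_one₀ (by nlinarith) (by nlinarith [sq_nonneg (1 - x)])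
  have h4 : 0 ≤ (n : ℝ) * (1 - x) := mul_nonneg (Nat.cast_nonneg _) (by linarith)
  have h5 : x ^ n * (1 + n * (1 - x)) ≤ 1 :=
    (mul_le_mul_of_nonneg_left h2 (pow_nonneg h0 n)).trans h3
  have h6 : 1 / A * (1 + n * (1 - x)) ≤ 1 :=
    (mul_le_mul_of_nonneg_right h (by linarith)).trans h5
  rw [one_div, inv_mul_le_iff₀ hA] at h6
  linarith

/-- Geometric decay at the boundary. -/
theorem decay {D : Set ℂ} (c : Cm D) (hf : Fat D) : ∃ A L r : ℝ, 1 ≤ A ∧ 2 ≤ L ∧ 0 < r ∧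
    ∀ k : ℕ, ∀ ζ ∉ D, ∀ z ∈ D, ‖z - ζ‖ ≤ r / L ^ k → 1 - ‖c.φ z‖ ≤ A / 2 ^ k := by
  obtain ⟨κ₀, hκ₀, r₀, hr₀, hF⟩ := hf
  set κ := min κ₀ 1 with hκ
  have hκ0 : 0 < κ := lt_min hκ₀ one_pos
  have hκ1 : κ ≤ 1 := min_le_right _ _
  set A := 2 / κ with hA
  have hA2 : 2 ≤ A := by rw [hA, le_div_iff₀ hκ0]; linarith
  have hAκ : A * κ = 2 := by rw [hA]; field_simp
  set L := 1 + 2 * A with hL
  have hsub : closedBall (0 : ℂ) (1 / A) ⊆ ball 0 1 :=
    closedBall_subset_ball (by rw [div_lt_one (by linarith)]; linarith)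
  obtain ⟨δ, hδ, hδD⟩ := ((isCompact_closedBall (0 : ℂ) (1 / A)).image_of_continuousOn
    (c.ψd.continuousOn.mono hsub)).exists_cthickening_subset_open c.op
    (by rintro _ ⟨x, hx, rfl⟩; exact c.ψm (hsub hx))
  set r := min δ r₀ with hr
  have hr0 : 0 < r := lt_min hδ hr₀
  have hL1 : 1 ≤ L := by linarith
  have hP : ∀ k : ℕ, ∀ ζ ∉ D, ∀ z ∈ D, ‖z - ζ‖ ≤ r / L ^ k → 1 / A ≤ ‖c.φ z‖ ^ 2 ^ k := by
    intro k
    induction k with
    | zero =>
      intro ζ hζ z hz h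
      by_contra hlt
      simp only [pow_zero, pow_one, div_one, not_le] at h hlt
      refine hζ (hδD (mem_cthickening_of_dist_le ζ z δ _ ⟨c.φ z, by simpa using hlt.le,
        c.li z hz⟩ ?_))
      rw [dist_comm, dist_eq_norm]
      exact h.trans (min_le_left _ _)
    | succ k ih =>
      intro ζ hζ z hz h
      set t := r / L ^ (k + 1) with ht
      have ht0 : 0 < t := by positivity
      have ht1 : t ≤ r₀ := (div_le_self hr0.le (one_le_pow₀ hL1)).trans (min_le_right _ _)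
      have hLt : L * t = r / L ^ k := by rw [ht, pow_succ]; field_simp
      obtain ⟨w, hw, hw'⟩ := hF ζ hζ t ht0 ht1
      rw [pow_succ' 2 k]
      refine step c (ρ := κ * t) (w := w) (by linarith) (by positivity) (by positivity)
        (fun u hu => hw' u (hu.trans (by gcongr; exact min_le_left _ _))) (fun u hu h1 => ?_) hz ?_
      · refine ih ζ hζ u hu ?_
        have e : A ^ 2 * (κ * t) = 2 * A * t := by
          calc A ^ 2 * (κ * t) = A * (A * κ) * t := by ring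
            _ = _ := by rw [hAκ]; ring
        calc ‖u - ζ‖ ≤ ‖u - w‖ + ‖w - ζ‖ := norm_sub_le_norm_sub_add_norm_sub _ _ _
          _ ≤ 2 * A * t + t := by linarith
          _ = _ := by rw [← hLt, hL]; ring
      · calc ‖z - w‖ ≤ ‖z - ζ‖ + ‖ζ - w‖ := norm_sub_le_norm_sub_add_norm_sub _ _ _
          _ ≤ t + t := by rw [norm_sub_rev ζ w]; linarith
          _ = A * κ * t := by rw [hAκ]; ring
          _ = _ := by ring
  refine ⟨A, L, r, by linarith, by linarith, hr0, fun k ζ hζ z hz h => ?_⟩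
  have h1 : ‖c.φ z‖ < 1 := by simpa using c.φm hz
  have := bern (by linarith) (norm_nonneg _) h1.le (hP k ζ hζ z hz h)
  rw [le_div_iff₀ (by positivity)]
  push_cast at this
  linarith

/-- The Hoelder estimate at the boundary. -/
theorem holder {D : Set ℂ} (c : Cm D) (hf : Fat D) : ∃ C α : ℝ, 0 < C ∧ 0 < α ∧ α ≤ 1 ∧
    ∀ ζ ∉ D, ∀ z ∈ D, 1 - ‖c.φ z‖ ≤ C * ‖z - ζ‖ ^ α := by
  obtain ⟨A, L, r, hA, hL, hr, h⟩ := decay c hf
  have hL0 : 0 < L := by linarith
  have hL1 : 1 < L := by linarith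
  set α := Real.logb L 2 with hα
  have hα0 : 0 < α := Real.logb_pos hL1 one_lt_two
  have hα1 : α ≤ 1 := by
    rw [hα, Real.logb_le_iff_le_rpow hL1 two_pos, Real.rpow_one]; exact hL
  have hLα : L ^ α = 2 := Real.rpow_logb hL0 hL1.ne' two_pos
  have hrα : 0 < r ^ α := Real.rpow_pos_of_pos hr α
  refine ⟨2 * A / r ^ α, α, by positivity, hα0, hα1, fun ζ hζ z hz => ?_⟩
  have hd : 0 < ‖z - ζ‖ := norm_pos_iff.2 (sub_ne_zero.2 fun e => hζ (e ▸ hz))
  set d := ‖z - ζ‖ with hdd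
  have hdα : 0 < d ^ α := Real.rpow_pos_of_pos hd α
  rw [div_mul_eq_mul_div, le_div_iff₀ hrα]
  by_cases hdr : d ≤ r
  · obtain ⟨k, hk1, hk2⟩ := exists_nat_pow_near ((one_le_div hd).2 hdr) hL1
    have h1 := h k ζ hζ z hz (by
      rw [le_div_iff₀ (by positivity)]; rw [le_div_iff₀ hd] at hk1; linarith)
    have h2 : r ^ α ≤ 2 ^ (k + 1) * d ^ α := by
      rw [div_lt_iff₀ hd] at hk2
      calc r ^ α ≤ (L ^ (k + 1) * d) ^ α := Real.rpow_le_rpow hr.le hk2.le hα0.le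
        _ = _ := by
          rw [Real.mul_rpow (by positivity) hd.le, ← Real.rpow_pow_comm hL0.le, hLα]
    calc (1 - ‖c.φ z‖) * r ^ α ≤ A / 2 ^ k * (2 ^ (k + 1) * d ^ α) := by gcongr
      _ = 2 * A * d ^ α := by rw [pow_succ]; field_simp
  · have h2 : r ^ α ≤ d ^ α := Real.rpow_le_rpow hr.le (not_le.1 hdr).le hα0.le
    nlinarith [norm_nonneg (c.φ z), mul_nonneg (norm_nonneg (c.φ z)) hrα.le]

end Vale.Agent.P144Q.M
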