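import Vale.Agent.P144Q.Basic
import Vale.Agent.P144G.Bar

/-!
Subharmonic lattice functions: the lemma of two constants and the decay near exterior discs.
-/

namespace Vale.Agent.P144Q.V

open Vale.Agent.P144 Vale.Agent.P144.AL
open Vale.Agent.P144.H170 (pt)
open Vale.Agent.P144G (sd iv sd_nn iv_le le_iv lap_iv_nn sd_near sd_two)

theorem fin_sd (c : ℝ × ℝ) (ρ : ℝ) : {x : Site | sd c x < ρ ^ 2}.Finite := by
  refine ((Set.finite_Icc ⌊c.1 - |ρ|⌋ ⌈c.1 + |ρ|⌉).prod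
    (Set.finite_Icc ⌊c.2 - |ρ|⌋ ⌈c.2 + |ρ|⌉)).subset fun x hx => ?_
  have hx : sd c x < ρ ^ 2 := hx
  unfold sd at hx
  have h1 : |(x.1:ℝ) - c.1| ≤ |ρ| := sq_le_sq.1 (by nlinarith [sq_nonneg ((x.2:ℝ) - c.2)])
  have h2 : |(x.2:ℝ) - c.2| ≤ |ρ| := sq_le_sq.1 (by nlinarith [sq_nonneg ((x.1:ℝ) - c.1)])
  rw [abs_le] at h1 h2
  refine ⟨⟨?_, ?_⟩, ?_, ?_⟩
  · exact Int.floor_le_iff.2 (by linarith)
  · exact Int.le_ceil_iff.2 (by linarith)
  · exact Int.floor_le_iff.2 (by linarith)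
  · exact Int.le_ceil_iff.2 (by linarith)

/-- The lemma of two constants. -/
theorem two0 {u : Site → ℝ} {c : ℝ × ℝ} {r ρ α β : ℝ} (hr : 6 ≤ r) (hρ : r ≤ ρ) (hαβ : α ≤ β)
    (sub : ∀ x, sd c x ≤ 2 * ρ ^ 2 → 0 ≤ lap u x ∧ u x ≤ β) (inn : ∀ x, sd c x ≤ r ^ 2 → u x ≤ α)
    {x : Site} (hx : sd c x ≤ (ρ / 2) ^ 2) : u x ≤ β - (β - α) * (r / ρ) ^ 2 := by
  classical
  have hr0 : 0 < r := by linarith
  have hρ0 : 0 < ρ := by linarith
  have h1 : (r / ρ) ^ 2 ≤ 1 := by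
    have : r / ρ ≤ 1 := (div_le_one hρ0).2 hρ
    have : 0 ≤ r / ρ := by positivity
    nlinarith
  by_cases hin : sd c x ≤ r ^ 2
  · nlinarith [inn x hin]
  obtain ⟨B, hB⟩ : ∃ B, B = (β - α) * r ^ 2 / 2 := ⟨_, rfl⟩
  have hB0 : 0 ≤ B := by rw [hB]; have := sub_nonneg.2 hαβ; positivity
  have mem : ∀ y, y ∈ (fin_sd c ρ).toFinset.filter (fun y => r ^ 2 < sd c y) ↔
      sd c y < ρ ^ 2 ∧ r ^ 2 < sd c y := fun y => by simp
  have key := H436.comparison' (Λ := (fin_sd c ρ).toFinset.filter (fun y => r ^ 2 < sd c y))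
    (u := u) (v := fun y => β + B * (1 / ρ ^ 2) - B * iv c y) (fun y hy => by
      obtain ⟨a1, a2⟩ := (mem y).1 hy
      have a3 := mul_nonneg hB0 (lap_iv_nn (c := c) (x := y) (by nlinarith))
      have a4 := (sub y (by nlinarith)).1
      rw [lap436, lap436]
      unfold lap at a3 a4 ⊢
      linarith) (fun y hy hn => by
      obtain ⟨w, hw, b1, b2⟩ : ∃ w ∈ (fin_sd c ρ).toFinset.filter (fun y => r ^ 2 < sd c y),
          |y.1 - w.1| ≤ 1 ∧ |y.2 - w.2| ≤ 1 := by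
        rcases hn with hn | hn | hn | hn <;> exact ⟨_, hn, by simp, by simp⟩
      obtain ⟨a1, a2⟩ := (mem w).1 hw
      by_cases hy' : sd c y ≤ r ^ 2
      · have a3 := (sd_near hr a2.le b1 b2).1
        have a4 := iv_le (c := c) (x := y) (s := r ^ 2 / 2) (by positivity) (by linarith)
        have a5 := mul_le_mul_of_nonneg_left a4 hB0
        have a6 : B * (1 / (r ^ 2 / 2)) = β - α := by rw [hB]; field_simp
        have a7 : 0 ≤ B * (1 / ρ ^ 2) := by positivity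
        linarith [inn y hy']
      · have a3 : ρ ^ 2 ≤ sd c y := not_lt.1 fun h' => hy ((mem y).2 ⟨h', not_le.1 hy'⟩)
        have a4 := mul_le_mul_of_nonneg_left (iv_le (c := c) (x := y) (by positivity) a3) hB0
        have a5 := sd_two hr a2.le b1 b2
        linarith [(sub y (by linarith)).2])
    ((mem x).2 ⟨by nlinarith, not_le.1 hin⟩)
  have a1 := mul_le_mul_of_nonneg_left
    (le_iv (c := c) (x := x) (lt_trans (by positivity) (not_le.1 hin)) hx) hB0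
  have a2 : B * (1 / (ρ / 2) ^ 2) = 4 * (B * (1 / ρ ^ 2)) := by field_simp; ring
  have a3 : (β - α) * (r / ρ) ^ 2 = 2 * (B * (1 / ρ ^ 2)) := by rw [hB]; field_simp
  have a4 : 0 ≤ B * (1 / ρ ^ 2) := by positivity
  linarith

theorem sd_le {a s : ℝ} (ha : 0 < a) (hs : 0 ≤ s) (c : ℂ) (x : Site) :
    sd (c.re / a, c.im / a) x ≤ (s / a) ^ 2 ↔ ‖pt a x - c‖ ≤ s := by
  have e : sd (c.re / a, c.im / a) x = ‖pt a x - c‖ ^ 2 / a ^ 2 := by
    rw [Complex.sq_norm, Complex.normSq_apply]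
    simp only [sd, pt, Complex.sub_re, Complex.sub_im]
    field_simp
  rw [e, div_pow, div_le_div_iff_of_pos_right (by positivity),
    sq_le_sq₀ (norm_nonneg _) hs]

/-- The lemma of two constants for the mesh `a`. -/
theorem two {u : Site → ℝ} {c : ℂ} {a r ρ α β : ℝ} (ha : 0 < a) (hr : 6 * a ≤ r) (hρ : r ≤ ρ)
    (hαβ : α ≤ β) (sub : ∀ x, ‖pt a x - c‖ ≤ 2 * ρ → 0 ≤ lap u x ∧ u x ≤ β)
    (inn : ∀ x, ‖pt a x - c‖ ≤ r → u x ≤ α) {x : Site} (hx : ‖pt a x - c‖ ≤ ρ / 2) :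
    u x ≤ β - (β - α) * (r / ρ) ^ 2 := by
  have hr0 : 0 < r := by linarith
  have hρ0 : 0 < ρ := by linarith
  have := two0 (u := u) (c := (c.re / a, c.im / a)) (r := r / a) (ρ := ρ / a)
    ((le_div_iff₀ ha).2 hr) (by gcongr) hαβ
    (fun y hy => sub y ((sd_le ha (by positivity) c y).1 (by
      have : (2 * ρ / a) ^ 2 = 4 * (ρ / a) ^ 2 := by ring
      nlinarith [sq_nonneg (ρ / a)])))
    (fun y hy => inn y ((sd_le ha hr0.le c y).1 hy)) (x := x) (by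
      rw [show ρ / a / 2 = ρ / 2 / a by ring]
      exact (sd_le ha (by positivity) c x).2 hx)
  rwa [show r / a / (ρ / a) = r / ρ by field_simp] at this

/-- The decay near a point with exterior discs at all scales. -/
theorem decay {u : Site → ℝ} {z : ℂ} {a η K : ℝ} (ha : 0 < a) (hη1 : η ≤ 1) (hK : 0 ≤ K) (n : ℕ)
    {t : ℝ} (ht : 0 < t) (hat : 6 * a ≤ η * t)
    (sub : ∀ x, ‖pt a x - z‖ ≤ 9 ^ n * t → 0 ≤ lap u x ∧ u x ≤ K)
    (ext : ∀ s, t ≤ s → s ≤ 9 ^ n * t → ∃ c, ‖c - z‖ ≤ s ∧ ∀ x, ‖pt a x - c‖ ≤ η * s → u x ≤ 0)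
    {x : Site} (hx : ‖pt a x - z‖ ≤ t) : u x ≤ (1 - η ^ 2 / 16) ^ n * K := by
  have hη : 0 < η := by
    by_contra h'
    nlinarith [mul_nonneg (neg_nonneg.2 (not_lt.1 h')) ht.le]
  induction n generalizing t x with
  | zero => simpa using (sub x (by simpa using hx)).2
  | succ n ih =>
    have e : (9:ℝ) ^ (n + 1) * t = 9 ^ n * (9 * t) := by ring
    rw [e] at sub ext
    have h1 : (1:ℝ) ≤ 9 ^ n := one_le_pow₀ (by norm_num)
    have h2 : 9 * t ≤ 9 ^ n * (9 * t) := le_mul_of_one_le_left (by positivity) h1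
    have h5 : 0 ≤ 1 - η ^ 2 / 16 := by nlinarith
    obtain ⟨c, hc, hc0⟩ := ext t le_rfl (by linarith)
    have key := two (u := u) (c := c) (r := η * t) (ρ := 4 * t) (α := 0)
      (β := (1 - η ^ 2 / 16) ^ n * K) ha hat (by nlinarith) (by positivity) (fun y hy => by
        have := norm_sub_le_norm_sub_add_norm_sub (pt a y) c z
        exact ⟨(sub y (by linarith)).1, ih (t := 9 * t) (by positivity) (by nlinarith) sub
          (fun s a b => ext s (by linarith) b) (by linarith)⟩) hc0 (x := x) (by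
        have := norm_sub_le_norm_sub_add_norm_sub (pt a x) z c
        rw [norm_sub_rev z c] at this
        linarith)
    refine key.trans (le_of_eq ?_)
    field_simp
    ring

end Vale.Agent.P144Q.V
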